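import Crest.Agent.Lib.BrouwerA
import Crest.Agent.R332.D3Defs

/-!
# R332 piece D4: zeros of Hermitian vector fields on the matrix interval `ε ≤ T ≤ Λ` (Brouwer)

Let `clamp y = max ε (min Λ y)`. The map `f(T) = cfc clamp (T - G T)` is continuous
`KK → KK` (`ContinuousOn.cfc`), `KK` is convex, compact, nonempty (`ε ≤ Λ`), so by
`Crest.Agent.Brouwer.brouwer_convex` (Crest/Agent/Lib/BrouwerA.lean; matrices with any scoped
norm, finite dimensional over ℝ) there is `T` with `T = cfc clamp (T - G T)`.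
Put `Y = T - G T` (Hermitian). For a unit eigenvector `v` of `Y`, `Y v = y v`, we get
`T v = clamp(y) v` and `v* (G T) v = clamp(y) - y`. If `y < ε`: `T v = ε v` and
`v* (G T) v = ε - y > 0`, contradicting `hlow`. If `y > Λ`: `v* (G T) v < 0`, contradicting
`hhigh`. So all eigenvalues of `Y` lie in `[ε,Λ]`, hence `T = cfc clamp Y = Y`, i.e. `G T = 0`.
-/

set_option autoImplicit false
open MeasureTheory Set Matrix
open scoped ComplexOrder

namespace Crest.Agent.R332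

namespace D4_aux

variable {n : ℕ}

theorem dg_sub (a b : Fin n → ℝ) : dg a - dg b = dg (fun i => a i - b i) := by
  unfold dg
  rw [Matrix.diagonal_sub]
  congr 1
  ext i
  push_cast
  rfl

theorem smul_one_conj {v : Matrix (Fin n) (Fin n) ℂ} (hv2 : v * vᴴ = 1) (c : ℝ) :
    (c : ℂ) • (1 : Matrix (Fin n) (Fin n) ℂ) = v * dg (fun _ => c) * vᴴ := by
  have : dg (fun _ : Fin n => c) = (c : ℂ) • (1 : Matrix (Fin n) (Fin n) ℂ) := by
    unfold dg
    rw [smul_one_eq_diagonal]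
  rw [this, Matrix.mul_smul, Matrix.smul_mul, Matrix.mul_one, hv2]

theorem mem_KK {u : Matrix (Fin n) (Fin n) ℂ} {a : Fin n → ℝ} {ε Λ : ℝ} (hu' : u * uᴴ = 1)
    (ha : ∀ i, ε ≤ a i ∧ a i ≤ Λ) : u * dg a * uᴴ ∈ KK n ε Λ := by
  constructor
  · rw [smul_one_conj hu', ← Matrix.sub_mul, ← Matrix.mul_sub, dg_sub]
    exact conj_dg_posSemidef fun i => by linarith [(ha i).1]
  · rw [smul_one_conj hu', ← Matrix.sub_mul, ← Matrix.mul_sub, dg_sub]
    exact conj_dg_posSemidef fun i => by linarith [(ha i).2]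

theorem KK_herm {T : Matrix (Fin n) (Fin n) ℂ} {ε Λ : ℝ} (hT : T ∈ KK n ε Λ) : T.IsHermitian := by
  have h := hT.1.isHermitian
  have h2 : T = (T - ((ε : ℝ) : ℂ) • (1 : Matrix (Fin n) (Fin n) ℂ)) +
      ((ε : ℝ) : ℂ) • (1 : Matrix (Fin n) (Fin n) ℂ) := by abel
  rw [h2]
  refine h.add ?_
  rw [Matrix.IsHermitian, conjTranspose_smul, conjTranspose_one]
  simp

theorem KK_diag {T : Matrix (Fin n) (Fin n) ℂ} {ε Λ : ℝ} (hT : T ∈ KK n ε Λ) :
    ∃ (u : Matrix (Fin n) (Fin n) ℂ) (a : Fin n → ℝ), uᴴ * u = 1 ∧ u * uᴴ = 1 ∧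
      T = u * dg a * uᴴ ∧ ∀ i, ε ≤ a i ∧ a i ≤ Λ := by
  obtain ⟨u, a, hu, hu', hTd⟩ := exists_diag (KK_herm hT)
  refine ⟨u, a, hu, hu', hTd, fun i => ⟨?_, ?_⟩⟩
  · have h1 : T - ((ε : ℝ) : ℂ) • (1 : Matrix (Fin n) (Fin n) ℂ) =
        u * dg (fun i => a i - ε) * uᴴ := by
      rw [smul_one_conj hu', hTd, ← Matrix.sub_mul, ← Matrix.mul_sub, dg_sub]
    have := diag_nonneg hu h1 hT.1 i
    linarith
  · have h1 : ((Λ : ℝ) : ℂ) • (1 : Matrix (Fin n) (Fin n) ℂ) - T =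
        u * dg (fun i => Λ - a i) * uᴴ := by
      rw [smul_one_conj hu', hTd, ← Matrix.sub_mul, ← Matrix.mul_sub, dg_sub]
    have := diag_nonneg hu h1 hT.2 i
    linarith

theorem convex_psd : Convex ℝ {A : Matrix (Fin n) (Fin n) ℂ | A.PosSemidef} := by
  intro A hA B hB a b ha hb _
  exact (hA.smul ha).add (hB.smul hb)

theorem convex_KK (ε Λ : ℝ) : Convex ℝ (KK n ε Λ) := by
  intro A hA B hB a b ha hb hab
  have hC : ∀ C : Matrix (Fin n) (Fin n) ℂ, C = a • C + b • C := fun C => by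
    rw [← add_smul, hab, one_smul]
  constructor
  · have := convex_psd hA.1 hB.1 ha hb hab
    have e : a • A + b • B - ((ε : ℝ) : ℂ) • (1 : Matrix (Fin n) (Fin n) ℂ) =
        a • (A - ((ε : ℝ) : ℂ) • (1 : Matrix (Fin n) (Fin n) ℂ)) +
          b • (B - ((ε : ℝ) : ℂ) • (1 : Matrix (Fin n) (Fin n) ℂ)) := by
      rw [smul_sub, smul_sub]
      nth_rewrite 1 [hC (((ε : ℝ) : ℂ) • (1 : Matrix (Fin n) (Fin n) ℂ))]
      abel
    show (a • A + b • B - ((ε : ℝ) : ℂ) • (1 : Matrix (Fin n) (Fin n) ℂ)).PosSemidef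
    rw [e]
    exact this
  · have := convex_psd hA.2 hB.2 ha hb hab
    have e : ((Λ : ℝ) : ℂ) • (1 : Matrix (Fin n) (Fin n) ℂ) - (a • A + b • B) =
        a • (((Λ : ℝ) : ℂ) • (1 : Matrix (Fin n) (Fin n) ℂ) - A) +
          b • (((Λ : ℝ) : ℂ) • (1 : Matrix (Fin n) (Fin n) ℂ) - B) := by
      rw [smul_sub, smul_sub]
      nth_rewrite 1 [hC (((Λ : ℝ) : ℂ) • (1 : Matrix (Fin n) (Fin n) ℂ))]
      abel
    show (((Λ : ℝ) : ℂ) • (1 : Matrix (Fin n) (Fin n) ℂ) - (a • A + b • B)).PosSemidef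
    rw [e]
    exact this

theorem isClosed_KK (ε Λ : ℝ) : IsClosed (KK n ε Λ) := by
  have h1 : IsClosed ((fun T : Matrix (Fin n) (Fin n) ℂ =>
      T - ((ε : ℝ) : ℂ) • (1 : Matrix (Fin n) (Fin n) ℂ)) ⁻¹' {A | A.PosSemidef}) :=
    isClosed_posSemidef.preimage (continuous_id.sub continuous_const)
  have h2 : IsClosed ((fun T : Matrix (Fin n) (Fin n) ℂ =>
      ((Λ : ℝ) : ℂ) • (1 : Matrix (Fin n) (Fin n) ℂ) - T) ⁻¹' {A | A.PosSemidef}) :=
    isClosed_posSemidef.preimage (continuous_const.sub continuous_id)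
  exact h1.inter h2

theorem KK_entry {T : Matrix (Fin n) (Fin n) ℂ} {ε Λ : ℝ} (hT : T ∈ KK n ε Λ) (i j : Fin n) :
    ‖T i j‖ ^ 2 ≤ n * (|ε| + |Λ|) ^ 2 := by
  obtain ⟨u, a, hu, hu', hTd, ha⟩ := KK_diag hT
  have h1 : ‖T i j‖ ^ 2 ≤ hs2 T := by
    unfold hs2
    calc ‖T i j‖ ^ 2 ≤ ∑ j, ‖T i j‖ ^ 2 :=
          Finset.single_le_sum (f := fun j => ‖T i j‖ ^ 2) (fun _ _ => by positivity)
            (Finset.mem_univ j)
      _ ≤ _ := Finset.single_le_sum (f := fun i => ∑ j, ‖T i j‖ ^ 2)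
          (fun _ _ => Finset.sum_nonneg fun _ _ => by positivity) (Finset.mem_univ i)
  have h2 : hs2 T = ∑ i, a i * a i := by
    rw [hs2_eq_rtr, (KK_herm hT).eq, hTd, conj_dg_mul hu, rtr_conj hu, rtr_dg]
  have h3 : ∑ i, a i * a i ≤ ∑ _i : Fin n, (|ε| + |Λ|) ^ 2 := by
    refine Finset.sum_le_sum fun i _ => ?_
    have h4 : |a i| ≤ |ε| + |Λ| := by
      rw [abs_le]
      have := ha i
      have e1 := neg_abs_le ε
      have e2 := le_abs_self Λ
      have e3 := abs_nonneg ε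
      have e4 := abs_nonneg Λ
      constructor <;> linarith
    calc a i * a i = |a i| ^ 2 := by rw [sq_abs]; ring
      _ ≤ _ := pow_le_pow_left₀ (abs_nonneg _) h4 2
  rw [h2] at h1
  refine h1.trans (h3.trans ?_)
  simp

open scoped Matrix.Norms.Elementwise in
theorem isCompact_KK (ε Λ : ℝ) : IsCompact (KK n ε Λ) := by
  have : ProperSpace (Matrix (Fin n) (Fin n) ℂ) := FiniteDimensional.proper ℝ _
  refine Metric.isCompact_of_isClosed_isBounded (isClosed_KK ε Λ) ?_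
  rw [Metric.isBounded_iff_subset_closedBall 0]
  refine ⟨√(n * (|ε| + |Λ|) ^ 2), fun T hT => ?_⟩
  rw [mem_closedBall_zero_iff, Matrix.norm_le_iff (Real.sqrt_nonneg _)]
  intro i j
  exact Real.le_sqrt_of_sq_le (KK_entry hT i j)

end D4_aux

open D4_aux

open scoped Matrix.Norms.Elementwise in
theorem matrix_zero {n : ℕ} {ε Λ : ℝ} (hεΛ : ε < Λ)
    (G : Matrix (Fin n) (Fin n) ℂ → Matrix (Fin n) (Fin n) ℂ)
    (hG : ContinuousOn G (KK n ε Λ)) (hherm : ∀ T ∈ KK n ε Λ, (G T).IsHermitian)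
    (hlow : ∀ T ∈ KK n ε Λ, ∀ v : Fin n → ℂ, v ≠ 0 → T *ᵥ v = ((ε : ℝ) : ℂ) • v →
      (star v ⬝ᵥ (G T *ᵥ v)).re < 0)
    (hhigh : ∀ T ∈ KK n ε Λ, ∀ v : Fin n → ℂ, v ≠ 0 → T *ᵥ v = ((Λ : ℝ) : ℂ) • v →
      0 < (star v ⬝ᵥ (G T *ᵥ v)).re) :
    ∃ T ∈ KK n ε Λ, G T = 0 := by
  classical
  set cl : ℝ → ℝ := fun y => max ε (min Λ y) with hcl
  have hclc : Continuous cl := by fun_prop
  have hcl1 : ∀ y, ε ≤ cl y ∧ cl y ≤ Λ := fun y =>
    ⟨le_max_left _ _, max_le hεΛ.le (min_le_left _ _)⟩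
  have hcont : ContinuousOn (fun T => cfc cl (T - G T)) (KK n ε Λ) := by
    have h1 : ContinuousOn (fun A : Matrix (Fin n) (Fin n) ℂ => cfc cl A) {A | A.IsHermitian} :=
      continuousOn_cfc_of_nhds isOpen_univ hclc.continuousOn fun A hA => ⟨hA, subset_univ _⟩
    refine h1.comp (continuousOn_id.sub hG) ?_
    intro T hT
    exact (KK_herm hT).sub (hherm T hT)
  have hmaps : Set.MapsTo (fun T => cfc cl (T - G T)) (KK n ε Λ) (KK n ε Λ) := by
    intro T hT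
    obtain ⟨u, y, hu, hu', hY⟩ := exists_diag ((KK_herm hT).sub (hherm T hT))
    show cfc cl (T - G T) ∈ KK n ε Λ
    rw [hY, cfc_diag hu hu']
    exact mem_KK hu' fun i => hcl1 _
  have hne : (KK n ε Λ).Nonempty := by
    refine ⟨1 * dg (fun _ => ε) * (1 : Matrix (Fin n) (Fin n) ℂ)ᴴ, mem_KK (by simp) ?_⟩
    exact fun i => ⟨le_rfl, hεΛ.le⟩
  obtain ⟨T, hT, hfix⟩ := Crest.Agent.Brouwer.brouwer_convex (convex_KK ε Λ) (D4_aux.isCompact_KK ε Λ)
    hne (fun T => cfc cl (T - G T)) hcont hmaps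
  refine ⟨T, hT, ?_⟩
  obtain ⟨v, y, hv, hv', hY⟩ := exists_diag ((KK_herm hT).sub (hherm T hT))
  have hT2 : T = v * dg (fun i => cl (y i)) * vᴴ := by
    rw [← cfc_diag hv hv', ← hY]
    exact hfix.symm
  have hGT : G T = v * dg (fun i => cl (y i) - y i) * vᴴ := by
    have h1 : G T = T - (T - G T) := by abel
    have h2 : v * dg (fun i => cl (y i) - y i) * vᴴ =
        v * dg (fun i => cl (y i)) * vᴴ - v * dg y * vᴴ := by
      rw [← Matrix.sub_mul, ← Matrix.mul_sub, dg_sub]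
    rw [h2, ← hT2, ← hY]
    abel
  have hact : ∀ (d : Fin n → ℝ) (i : Fin n),
      (v * dg d * vᴴ) *ᵥ (v *ᵥ Pi.single i 1) = ((d i : ℝ) : ℂ) • (v *ᵥ Pi.single i 1) := by
    intro d i
    rw [Matrix.mulVec_mulVec]
    have h1 : v * dg d * vᴴ * v = v * dg d := by
      rw [Matrix.mul_assoc, hv, Matrix.mul_one]
    rw [h1, ← Matrix.mulVec_mulVec, ← Matrix.mulVec_smul]
    congr 1
    unfold dg
    ext j
    rw [Matrix.mulVec_diagonal]
    by_cases h : j = i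
    · subst h; simp
    · simp [h]
  have hnorm : ∀ i : Fin n, star (v *ᵥ Pi.single i (1:ℂ)) ⬝ᵥ (v *ᵥ Pi.single i 1) = 1 := by
    intro i
    rw [Matrix.star_mulVec, ← Matrix.dotProduct_mulVec, Matrix.mulVec_mulVec, hv, Matrix.one_mulVec]
    simp
  have hw0 : ∀ i : Fin n, v *ᵥ Pi.single i (1:ℂ) ≠ 0 := by
    intro i h
    have := hnorm i
    rw [h] at this
    simp at this
  have hquad : ∀ i : Fin n, (star (v *ᵥ Pi.single i (1:ℂ)) ⬝ᵥ (G T *ᵥ (v *ᵥ Pi.single i 1))).re =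
      cl (y i) - y i := by
    intro i
    rw [hGT, hact, dotProduct_smul, hnorm, smul_eq_mul, mul_one, Complex.ofReal_re]
  have hkey : ∀ i, cl (y i) = y i := by
    intro i
    rcases lt_or_ge (y i) ε with h | h
    · exfalso
      have hc : cl (y i) = ε := by
        simp only [hcl]
        rw [min_eq_right (by linarith), max_eq_left h.le]
      have h1 := hlow T hT (v *ᵥ Pi.single i 1) (hw0 i) (by
        conv_lhs => rw [hT2]
        rw [hact, hc])
      rw [hquad, hc] at h1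
      linarith
    · rcases lt_or_ge Λ (y i) with h' | h'
      · exfalso
        have hc : cl (y i) = Λ := by
          simp only [hcl]
          rw [min_eq_left h'.le, max_eq_right hεΛ.le]
        have h1 := hhigh T hT (v *ᵥ Pi.single i 1) (hw0 i) (by
          conv_lhs => rw [hT2]
          rw [hact, hc])
        rw [hquad, hc] at h1
        linarith
      · simp only [hcl]
        rw [min_eq_right h', max_eq_right h]
  rw [hGT]
  have : (fun i => cl (y i) - y i) = fun _ : Fin n => (0:ℝ) := by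
    ext i; rw [hkey i]; ring
  rw [this]
  have h0 : dg (fun _ : Fin n => (0:ℝ)) = 0 := by unfold dg; simp
  rw [h0, Matrix.mul_zero, Matrix.zero_mul]

end Crest.Agent.R332
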