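import Crest.Agent.R332.D3
import Crest.Agent.R332.D4

/-!
# R332 piece D5: existence of `T` with a Riccati path from `√T` to `-√T + η` (assembly of D3, D4)

Let `Λ = (w₁+η)²`; for `n ≥ 1`, `w ≥ 0` on `[a,b]` (as `0 ≤ 𝒲 ≤ w`), so `w₁ ≥ 0`, `√Λ = w₁+η`,
`ε < Λ` (`√ε < η/2`). (`n = 0` is trivial.) Put `δ = η exp(-2√Λ (b-a))` and apply `cut_flow` on
`KK n ε Λ`, then `matrix_zero` to `G(T) = F T b + √T - η•1`.
* `hlow`: `T v = ε v` ⟹ `√T v = √ε v` and `v*(F+√T)v ≤ 2 v*√T v = 2√ε|v|² < η|v|²`.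
* `hhigh`: `T v = Λ v`; `P = √T - F`, `0 ≤ P ≤ 2√T ≤ 2√Λ`, so `P² ≤ 2√Λ P`, and
  `P' = P² - √T P - P √T + ρ𝒲` [since `T - F² = √T P + P √T - P²`], hence
  `(v*Pv)' = |Pv|² - 2√Λ v*Pv + ρ v*𝒲v ≤ v*𝒲v ≤ w|v|²`, `v*P(b)v ≤ w₁|v|²`; therefore
  `v*G v = (2√Λ - η)|v|² - v*P(b)v ≥ (w₁+η)|v|² > 0`.
* At the zero `T` of `G`: `Q = F + √T`, `Q(b) = η`. Claim `Q(x) ≥ δ` for all `x ∈ [a,b]`: with
  `s = b - x`, `X(s) = Q(b-s) - η e^{-2√Λ s}`, `M₂ = (√T-F)/2` (`0 ≤ M₂ ≤ √Λ`),
  `dX/ds = -M₂ X - X M₂ + [2(√Λ - M₂) η e^{-2√Λ s} + ρ𝒲]`, `X(0) = 0` ⟹ `X ≥ 0`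
  (`lyap_posSemidef`). So `ρ ≡ 1` and `F` solves the uncut equation.
-/

set_option autoImplicit false
open MeasureTheory Set Matrix
open scoped ComplexOrder

namespace Crest.Agent.R332

namespace D5_aux

variable {n : ℕ}

/-- real quadratic form -/
noncomputable def qf (A : Matrix (Fin n) (Fin n) ℂ) (v : Fin n → ℂ) : ℝ :=
  (star v ⬝ᵥ (A *ᵥ v)).re

theorem qf_add (A B : Matrix (Fin n) (Fin n) ℂ) (v : Fin n → ℂ) :
    qf (A + B) v = qf A v + qf B v := by
  unfold qf
  rw [Matrix.add_mulVec, dotProduct_add, Complex.add_re]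

theorem qf_sub (A B : Matrix (Fin n) (Fin n) ℂ) (v : Fin n → ℂ) :
    qf (A - B) v = qf A v - qf B v := by
  unfold qf
  rw [Matrix.sub_mulVec, dotProduct_sub, Complex.sub_re]

theorem qf_smul (c : ℝ) (A : Matrix (Fin n) (Fin n) ℂ) (v : Fin n → ℂ) :
    qf ((c : ℂ) • A) v = c * qf A v := by
  unfold qf
  rw [Matrix.smul_mulVec, dotProduct_smul, smul_eq_mul, Complex.re_ofReal_mul]

theorem qf_nonneg {A : Matrix (Fin n) (Fin n) ℂ} (hA : A.PosSemidef) (v : Fin n → ℂ) :
    0 ≤ qf A v := by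
  have := hA.dotProduct_mulVec_nonneg v
  exact (Complex.le_def.1 this).1

theorem qf_one_pos {v : Fin n → ℂ} (hv : v ≠ 0) : 0 < qf (1 : Matrix (Fin n) (Fin n) ℂ) v := by
  have := (Matrix.PosDef.one (n := Fin n) (R := ℂ)).dotProduct_mulVec_pos hv
  exact (Complex.lt_def.1 this).1

theorem qf_mul_right {A B : Matrix (Fin n) (Fin n) ℂ} {c : ℝ} {v : Fin n → ℂ}
    (h : B *ᵥ v = (c : ℂ) • v) : qf (A * B) v = c * qf A v := by
  unfold qf
  rw [← Matrix.mulVec_mulVec, h, Matrix.mulVec_smul, dotProduct_smul, smul_eq_mul,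
    Complex.re_ofReal_mul]

theorem qf_mul_left {A B : Matrix (Fin n) (Fin n) ℂ} {c : ℝ} {v : Fin n → ℂ}
    (hB : B.IsHermitian) (h : B *ᵥ v = (c : ℂ) • v) : qf (B * A) v = c * qf A v := by
  unfold qf
  rw [← Matrix.mulVec_mulVec, Matrix.dotProduct_mulVec]
  have : star v ᵥ* B = star ((c : ℂ) • v) := by
    rw [← h, Matrix.star_mulVec, hB.eq]
  rw [this, star_smul, smul_dotProduct]
  simp

theorem qf_eig {B : Matrix (Fin n) (Fin n) ℂ} {c : ℝ} {v : Fin n → ℂ}
    (h : B *ᵥ v = (c : ℂ) • v) : qf B v = c * qf (1 : Matrix (Fin n) (Fin n) ℂ) v := by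
  have := qf_mul_right (A := 1) h
  rwa [Matrix.one_mul] at this

theorem smul_one_eq_conj {u : Matrix (Fin n) (Fin n) ℂ} (hu' : u * uᴴ = 1) (c : ℝ) :
    (c : ℂ) • (1 : Matrix (Fin n) (Fin n) ℂ) = u * dg (fun _ => c) * uᴴ := by
  have : dg (fun _ : Fin n => c) = (c : ℂ) • (1 : Matrix (Fin n) (Fin n) ℂ) := by
    unfold dg
    ext i j
    by_cases h : i = j <;> simp [h]
  rw [this, Matrix.mul_smul, Matrix.smul_mul, Matrix.mul_one, hu']

theorem conj_dg_sub (u : Matrix (Fin n) (Fin n) ℂ) (a b : Fin n → ℝ) :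
    u * dg a * uᴴ - u * dg b * uᴴ = u * dg (fun i => a i - b i) * uᴴ := by
  rw [← Matrix.sub_mul, ← Matrix.mul_sub]
  congr 2
  unfold dg
  rw [Matrix.diagonal_sub]
  congr 1
  funext i
  push_cast
  rfl

theorem le_of_smul_sub {A u : Matrix (Fin n) (Fin n) ℂ} {a : Fin n → ℝ} (hu : uᴴ * u = 1)
    (hu' : u * uᴴ = 1) (hA : A = u * dg a * uᴴ) {c : ℝ}
    (h : ((c : ℂ) • (1 : Matrix (Fin n) (Fin n) ℂ) - A).PosSemidef) : ∀ i, a i ≤ c := by
  intro i
  have h1 : (c : ℂ) • (1 : Matrix (Fin n) (Fin n) ℂ) - A = u * dg (fun i => c - a i) * uᴴ := by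
    rw [smul_one_eq_conj hu' c, hA, conj_dg_sub]
  have := diag_nonneg hu h1 h i
  linarith

theorem msq_le {T : Matrix (Fin n) (Fin n) ℂ} (hT : T.PosSemidef) {L : ℝ} (hL : 0 ≤ L)
    (h : (((L ^ 2 : ℝ) : ℂ) • (1 : Matrix (Fin n) (Fin n) ℂ) - T).PosSemidef) :
    ((L : ℂ) • (1 : Matrix (Fin n) (Fin n) ℂ) - msq T).PosSemidef := by
  obtain ⟨u, a, hu, hu', hA⟩ := exists_diag hT.isHermitian
  have ha := diag_nonneg hu hA hT
  have hle := le_of_smul_sub hu hu' hA h
  rw [smul_one_eq_conj hu' L, msq, hA, mpow_diag hu hu', conj_dg_sub]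
  refine conj_dg_posSemidef fun i => ?_
  rw [← Real.sqrt_eq_rpow]
  have : √(a i) ≤ L := by
    rw [← Real.sqrt_sq hL]
    exact Real.sqrt_le_sqrt (hle i)
  linarith

theorem msq_eig {T : Matrix (Fin n) (Fin n) ℂ} (hT : T.PosSemidef) {c : ℝ} {v : Fin n → ℂ}
    (h : T *ᵥ v = (c : ℂ) • v) : msq T *ᵥ v = ((√c : ℝ) : ℂ) • v := by
  obtain ⟨u, a, hu, hu', hA⟩ := exists_diag hT.isHermitian
  have h1 : dg a *ᵥ (uᴴ *ᵥ v) = (c : ℂ) • (uᴴ *ᵥ v) := by
    have := congrArg (fun z => uᴴ *ᵥ z) h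
    rw [Matrix.mulVec_smul] at this
    rw [← this, hA, Matrix.mulVec_mulVec, Matrix.mulVec_mulVec]
    congr 1
    rw [← Matrix.mul_assoc, ← Matrix.mul_assoc, hu, Matrix.one_mul]
  have h2 : dg (fun i => (a i) ^ (1 / 2 : ℝ)) *ᵥ (uᴴ *ᵥ v) =
      ((√c : ℝ) : ℂ) • (uᴴ *ᵥ v) := by
    funext i
    have h3 := congrFun h1 i
    unfold dg at h3 ⊢
    rw [Matrix.mulVec_diagonal] at h3 ⊢
    simp only [Pi.smul_apply, smul_eq_mul] at h3 ⊢
    by_cases hy : (uᴴ *ᵥ v) i = 0
    · rw [hy]; simp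
    · have h4 : ((a i : ℝ) : ℂ) = (c : ℂ) := mul_right_cancel₀ hy h3
      have h5 : a i = c := by exact_mod_cast h4
      rw [h5, ← Real.sqrt_eq_rpow]
  have h3 : msq T *ᵥ v = u *ᵥ (dg (fun i => (a i) ^ (1 / 2 : ℝ)) *ᵥ (uᴴ *ᵥ v)) := by
    rw [msq, hA, mpow_diag hu hu', Matrix.mulVec_mulVec, Matrix.mulVec_mulVec]
  rw [h3, h2, Matrix.mulVec_smul, Matrix.mulVec_mulVec, hu', Matrix.one_mulVec]

theorem sq_le {P : Matrix (Fin n) (Fin n) ℂ} (hP : P.PosSemidef) {c : ℝ}
    (h : ((c : ℂ) • (1 : Matrix (Fin n) (Fin n) ℂ) - P).PosSemidef) (v : Fin n → ℂ) :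
    qf (P * P) v ≤ c * qf P v := by
  obtain ⟨u, a, hu, hu', hA⟩ := exists_diag hP.isHermitian
  have ha := diag_nonneg hu hA hP
  have hle := le_of_smul_sub hu hu' hA h
  have h1 : ((c : ℂ) • P - P * P).PosSemidef := by
    rw [hA, conj_dg_mul hu, smul_conj_dg, conj_dg_sub]
    refine conj_dg_posSemidef fun i => ?_
    nlinarith [ha i, hle i]
  have := qf_nonneg h1 v
  rw [qf_sub, qf_smul] at this
  linarith

theorem qf_deriv {F F' : ℝ → Matrix (Fin n) (Fin n) ℂ} {s : Set ℝ} (h : MDerivOn F F' s)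
    (v : Fin n → ℂ) : ∀ x ∈ s, HasDerivWithinAt (fun y => qf (F y) v) (qf (F' x) v) s x := by
  intro x hx
  have h1 : HasDerivWithinAt (fun y => star v ⬝ᵥ (F y *ᵥ v)) (star v ⬝ᵥ (F' x *ᵥ v)) s x := by
    unfold dotProduct Matrix.mulVec dotProduct
    refine HasDerivWithinAt.fun_sum fun i _ => ?_
    refine HasDerivWithinAt.const_mul _ ?_
    refine HasDerivWithinAt.fun_sum fun j _ => ?_
    exact (h x hx i j).mul_const _
  exact (Complex.reCLM.hasFDerivAt.comp_hasDerivWithinAt x h1)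

theorem mderivOn_reverse {F F' : ℝ → Matrix (Fin n) (Fin n) ℂ} {a b : ℝ}
    (h : MDerivOn F F' (Icc a b)) :
    MDerivOn (fun x => F (a + b - x)) (fun x => - F' (a + b - x)) (Icc a b) := by
  intro x hx i j
  have hx' : a + b - x ∈ Icc a b := ⟨by linarith [hx.2], by linarith [hx.1]⟩
  have h1 := h _ hx' i j
  have h2 : HasDerivWithinAt (fun y : ℝ => a + b - y) (-1) (Icc a b) x := by
    simpa using ((hasDerivWithinAt_id x (Icc a b)).const_sub (a + b))
  have h3 : MapsTo (fun y : ℝ => a + b - y) (Icc a b) (Icc a b) :=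
    fun y hy => ⟨by linarith [hy.2], by linarith [hy.1]⟩
  have h4 := HasDerivWithinAt.scomp x h1 h2 h3
  simpa [Function.comp_def] using h4

theorem mderivOn_continuousOn {F F' : ℝ → Matrix (Fin n) (Fin n) ℂ} {s : Set ℝ}
    (h : MDerivOn F F' s) : ContinuousOn F s := by
  intro x hx
  refine continuousWithinAt_pi.2 fun i => continuousWithinAt_pi.2 fun j => ?_
  exact (h x hx i j).continuousWithinAt

theorem posDef_of_mem {ε Λ : ℝ} (hε : 0 < ε) {T : Matrix (Fin n) (Fin n) ℂ}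
    (hT : T ∈ KK n ε Λ) : T.PosDef := by
  have h1 : (T - ((ε : ℝ) : ℂ) • (1 : Matrix (Fin n) (Fin n) ℂ)).PosSemidef := hT.1
  have h2 : (((ε : ℝ) : ℂ) • (1 : Matrix (Fin n) (Fin n) ℂ)).PosDef := by
    refine Matrix.PosDef.one.smul ?_
    exact_mod_cast hε
  have := h2.add_posSemidef h1
  rwa [add_sub_cancel] at this

theorem smul_one_herm (c : ℝ) : ((c : ℂ) • (1 : Matrix (Fin n) (Fin n) ℂ)).IsHermitian := by
  unfold Matrix.IsHermitian
  rw [Matrix.conjTranspose_smul, Matrix.conjTranspose_one]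
  simp

end D5_aux

open D5_aux in
theorem exists_T {n : ℕ} {a b : ℝ} (hab : a ≤ b) {ε η w₁ : ℝ} (hε : 0 < ε) (hη : 0 < η)
    (hεη : 2 * √ε < η) (w : ℝ → ℝ) (hw : ContinuousOn w (Icc a b))
    (hw₁ : ∫ x in a..b, w x ≤ w₁) (hw0 : 0 ≤ w₁)
    (W : Matrix (Fin n) (Fin n) ℂ → ℝ → Matrix (Fin n) (Fin n) ℂ)
    (hW : ContinuousOn (fun q : Matrix (Fin n) (Fin n) ℂ × ℝ => W q.1 q.2)
      (KI n ε ×ˢ Icc a b))
    (hpsd : ∀ T ∈ KI n ε, ∀ x ∈ Icc a b, (W T x).PosSemidef ∧
      (((w x : ℝ) : ℂ) • (1 : Matrix (Fin n) (Fin n) ℂ) - W T x).PosSemidef) :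
    ∃ (T : Matrix (Fin n) (Fin n) ℂ) (F : ℝ → Matrix (Fin n) (Fin n) ℂ),
      T ∈ KK n ε ((w₁ + η) ^ 2) ∧ F a = msq T ∧
      F b = ((η : ℝ) : ℂ) • (1 : Matrix (Fin n) (Fin n) ℂ) - msq T ∧
      MDerivOn F (fun x => T - F x * F x - W T x) (Icc a b) ∧
      ∀ x ∈ Icc a b, (msq T - F x).PosSemidef ∧ (msq T + F x).PosSemidef := by
  set L : ℝ := w₁ + η with hLdef
  have hL : 0 < L := by positivity
  set Λ : ℝ := L ^ 2 with hΛ
  have hsε : 0 ≤ √ε := Real.sqrt_nonneg ε
  have hεΛ : ε < Λ := by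
    have h1 : ε = √ε ^ 2 := (Real.sq_sqrt hε.le).symm
    rw [h1, hΛ]
    have h2 : √ε < L := by linarith
    exact pow_lt_pow_left₀ h2 hsε (by norm_num)
  have hsub : KK n ε Λ ⊆ KI n ε := fun T hT => hT.1
  set δ : ℝ := η * Real.exp (-(2 * L * (b - a))) with hδdef
  have hδ : 0 < δ := by positivity
  obtain ⟨F, ρ, hF, hFc⟩ := cut_flow hab hε hεΛ.le hδ W
    (hW.mono (prod_mono hsub subset_rfl)) (fun T hT x hx => (hpsd T (hsub hT) x hx).1)
  have hPD : ∀ T ∈ KK n ε Λ, T.PosDef := fun T hT => posDef_of_mem hε hT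
  have ha' : a ∈ Icc a b := ⟨le_rfl, hab⟩
  have hb' : b ∈ Icc a b := ⟨hab, le_rfl⟩
  have hsq : ∀ T ∈ KK n ε Λ, msq T * msq T = T := fun T hT =>
    mpow_half_mul (hPD T hT).posSemidef
  have hmle : ∀ T ∈ KK n ε Λ, ((L : ℂ) • (1 : Matrix (Fin n) (Fin n) ℂ) - msq T).PosSemidef :=
    fun T hT => msq_le (hPD T hT).posSemidef hL.le hT.2
  have hmherm : ∀ T ∈ KK n ε Λ, (msq T).IsHermitian := fun T hT =>
    (mpow_posSemidef (hPD T hT).posSemidef _).isHermitian
  -- `0 ≤ P ≤ 2 L`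
  have hPle : ∀ T ∈ KK n ε Λ, ∀ x ∈ Icc a b,
      (((2 * L : ℝ) : ℂ) • (1 : Matrix (Fin n) (Fin n) ℂ) - (msq T - F T x)).PosSemidef := by
    intro T hT x hx
    have h1 := ((hF T hT).2.2 x hx).2.2.2.1.posSemidef
    have h2 := hmle T hT
    have h3 := (h2.add h2).add h1
    convert h3 using 1
    push_cast
    rw [two_mul, add_smul]
    abel
  set G : Matrix (Fin n) (Fin n) ℂ → Matrix (Fin n) (Fin n) ℂ := fun T =>
    F T b + msq T - ((η : ℝ) : ℂ) • (1 : Matrix (Fin n) (Fin n) ℂ) with hGdef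
  have hzero : ∃ T ∈ KK n ε Λ, G T = 0 := by
    refine matrix_zero hεΛ G ?_ ?_ ?_ ?_
    · refine (hFc.add ?_).sub continuousOn_const
      exact (continuousOn_mpow_posDef (n := n) (1 / 2)).mono fun T hT => hPD T hT
    · intro T hT
      have h1 := ((hF T hT).2.2 b hb').2.2.2.1.isHermitian
      rw [hGdef]
      simp only
      rw [add_comm (F T b)]
      exact h1.sub (smul_one_herm η)
    · intro T hT v hv hTv
      have h1 := msq_eig (hPD T hT).posSemidef hTv
      have h2 := qf_nonneg ((hF T hT).2.2 b hb').2.2.1 v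
      have h3 := qf_one_pos hv
      have h4 : qf (G T) v < 0 := by
        rw [hGdef]
        simp only
        rw [qf_sub, qf_add, qf_smul]
        rw [qf_sub] at h2
        rw [qf_eig h1] at h2 ⊢
        nlinarith
      exact h4
    · intro T hT v hv hTv
      have h1 := msq_eig (hPD T hT).posSemidef hTv
      rw [hΛ, Real.sqrt_sq hL.le] at h1
      have h3 := qf_one_pos hv
      -- the function `g`
      have hder := qf_deriv (hF T hT).2.1 v
      have hgd : ∀ x ∈ Icc a b, HasDerivWithinAt (fun y => - qf (F T y) v)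
          (- qf (T - F T x * F T x - ((ρ T x : ℝ) : ℂ) • W T x) v) (Icc a b) x :=
        fun x hx => (hder x hx).neg
      have hbd : ∀ x ∈ Icc a b, - qf (T - F T x * F T x - ((ρ T x : ℝ) : ℂ) • W T x) v ≤
          w x * qf (1 : Matrix (Fin n) (Fin n) ℂ) v := by
        intro x hx
        obtain ⟨hρ0, hρ1, hP0, -, -⟩ := (hF T hT).2.2 x hx
        have hPl := hPle T hT x hx
        have h4 := sq_le hP0 hPl v
        have h5 := (hpsd T (hsub hT) x hx).1
        have h6 := (hpsd T (hsub hT) x hx).2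
        have h7 := qf_nonneg h5 v
        have h8 := qf_nonneg h6 v
        rw [qf_sub, qf_smul] at h8
        -- expand
        have e1 : (msq T - F T x) * (msq T - F T x) = F T x * F T x - T +
            msq T * (msq T - F T x) + (msq T - F T x) * msq T := by
          have := hsq T hT
          simp only [Matrix.sub_mul, Matrix.mul_sub]
          rw [this]
          abel
        rw [e1, qf_add, qf_add, qf_mul_left (hmherm T hT) h1, qf_mul_right h1, qf_sub] at h4
        rw [qf_sub, qf_sub, qf_smul]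
        nlinarith [mul_le_mul_of_nonneg_right hρ1 h7]
      have key := intervalIntegral.sub_le_integral_of_hasDeriv_right_of_le hab
        (g := fun y => - qf (F T y) v)
        (g' := fun x => - qf (T - F T x * F T x - ((ρ T x : ℝ) : ℂ) • W T x) v)
        (φ := fun x => w x * qf (1 : Matrix (Fin n) (Fin n) ℂ) v)
        (fun x hx => (hgd x hx).continuousWithinAt)
        (fun x hx => ((hgd x ⟨hx.1.le, hx.2.le⟩).mono_of_mem_nhdsWithin
          (Icc_mem_nhdsGT_of_mem ⟨hx.1.le, hx.2⟩)))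
        ((hw.mul continuousOn_const).integrableOn_Icc)
        (fun x hx => hbd x ⟨hx.1.le, hx.2.le⟩)
      rw [intervalIntegral.integral_mul_const] at key
      rw [(hF T hT).1, qf_eig h1] at key
      have h9 : 0 < qf (G T) v := by
        rw [hGdef]
        simp only
        rw [qf_sub, qf_add, qf_smul, qf_eig h1]
        nlinarith [mul_le_mul_of_nonneg_right hw₁ h3.le]
      exact h9
  obtain ⟨T, hT, hGT⟩ := hzero
  have hFb : F T b = ((η : ℝ) : ℂ) • (1 : Matrix (Fin n) (Fin n) ℂ) - msq T := by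
    have : F T b + msq T - ((η : ℝ) : ℂ) • (1 : Matrix (Fin n) (Fin n) ℂ) = 0 := hGT
    rw [← sub_eq_zero, ← this]
    abel
  have hFcont : ContinuousOn (F T) (Icc a b) := mderivOn_continuousOn (hF T hT).2.1
  have hρ : ∀ x ∈ Icc a b, ρ T x = 1 := by
    -- reversed time
    set M : ℝ → Matrix (Fin n) (Fin n) ℂ := fun x =>
      -(((1 / 2 : ℝ) : ℂ) • (msq T - F T (a + b - x))) with hM
    set e : ℝ → ℝ := fun x => η * Real.exp (-(2 * L * (x - a))) with he
    set X : ℝ → Matrix (Fin n) (Fin n) ℂ := fun x =>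
      F T (a + b - x) + msq T - ((e x : ℝ) : ℂ) • (1 : Matrix (Fin n) (Fin n) ℂ) with hX
    set R : ℝ → Matrix (Fin n) (Fin n) ℂ := fun x =>
      ((e x : ℝ) : ℂ) • (((2 * L : ℝ) : ℂ) • (1 : Matrix (Fin n) (Fin n) ℂ) -
        (msq T - F T (a + b - x))) + ((ρ T (a + b - x) : ℝ) : ℂ) • W T (a + b - x) with hR
    have hmem : ∀ x ∈ Icc a b, a + b - x ∈ Icc a b :=
      fun x hx => ⟨by linarith [hx.2], by linarith [hx.1]⟩
    have he0 : ∀ x, 0 < e x := fun x => by rw [he]; positivity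
    have hpos : ∀ x ∈ Icc a b, (X x).PosSemidef := by
      refine lyap_posSemidef hab X M R ?_ ?_ ?_ ?_
      · have h1 : ContinuousOn (fun x => msq T - F T (a + b - x)) (Icc a b) :=
          continuousOn_const.sub (hFcont.comp (by fun_prop) hmem)
        exact (h1.const_smul (((1 / 2 : ℝ) : ℂ))).neg
      · have hrev := mderivOn_reverse (hF T hT).2.1
        intro x hx i j
        have h1 := hrev x hx i j
        have hed : HasDerivWithinAt e (-(2 * L) * e x) (Icc a b) x := by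
          have h2 : HasDerivAt (fun x : ℝ => -(2 * L * (x - a))) (-(2 * L)) x := by
            have h3 : HasDerivAt (fun x : ℝ => -(2 * L * (x - a))) (-(2 * L * 1)) x :=
              (((hasDerivAt_id x).sub_const a).const_mul (2 * L)).neg
            simpa using h3
          have h4 := (h2.exp.const_mul η)
          have h5 : η * (Real.exp (-(2 * L * (x - a))) * -(2 * L)) = -(2 * L) * e x := by
            rw [he]; ring
          rw [h5] at h4
          exact h4.hasDerivWithinAt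
        have hed' : HasDerivWithinAt (fun y => ((e y : ℝ) : ℂ) *
            (1 : Matrix (Fin n) (Fin n) ℂ) i j)
            (((-(2 * L) * e x : ℝ) : ℂ) * (1 : Matrix (Fin n) (Fin n) ℂ) i j) (Icc a b) x :=
          (hed.ofReal_comp).mul_const _
        have h6 := (h1.add_const (msq T i j)).sub hed'
        have hFh : (F T (a + b - x)).IsHermitian := by
          have h7 := ((hF T hT).2.2 _ (hmem x hx)).2.2.2.1.isHermitian
          have h8 := h7.sub (hmherm T hT)
          rwa [add_sub_cancel_left] at h8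
        have hMh : (M x)ᴴ = M x := by
          rw [hM]
          simp only
          rw [Matrix.conjTranspose_neg, Matrix.conjTranspose_smul,
            ((hmherm T hT).sub hFh).eq]
          simp
        have hval : M x * X x + X x * (M x)ᴴ + R x =
            -(T - F T (a + b - x) * F T (a + b - x) -
              ((ρ T (a + b - x) : ℝ) : ℂ) • W T (a + b - x)) -
            ((-(2 * L) * e x : ℝ) : ℂ) • (1 : Matrix (Fin n) (Fin n) ℂ) := by
          rw [hMh, hM, hX, hR]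
          simp only
          have hs := hsq T hT
          generalize F T (a + b - x) = f at *
          generalize ((ρ T (a + b - x) : ℝ) : ℂ) • W T (a + b - x) = r at *
          generalize e x = c at *
          generalize msq T = m at *
          rw [← hs]
          simp only [Matrix.mul_sub, Matrix.sub_mul, Matrix.mul_add, Matrix.add_mul,
            Matrix.neg_mul, Matrix.mul_neg, Matrix.smul_mul, Matrix.mul_smul, Matrix.mul_one,
            Matrix.one_mul, smul_sub, smul_add, smul_smul]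
          push_cast
          module
        show HasDerivWithinAt (fun y => X y i j)
          ((M x * X x + X x * (M x)ᴴ + R x) i j) (Icc a b) x
        rw [hval]
        refine HasDerivWithinAt.congr_deriv (f' := _) h6 ?_
        simp [Matrix.sub_apply, Matrix.smul_apply]
      · intro x hx
        rw [hR]
        refine Matrix.PosSemidef.add ?_ ?_
        · refine (hPle T hT _ (hmem x hx)).smul ?_
          exact_mod_cast (he0 x).le
        · refine (hpsd T (hsub hT) _ (hmem x hx)).1.smul ?_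
          exact_mod_cast ((hF T hT).2.2 _ (hmem x hx)).1
      · have : X a = 0 := by
          rw [hX]
          simp only
          rw [add_sub_cancel_left, hFb, he]
          simp
        rw [this]
        exact Matrix.PosSemidef.zero
    intro x hx
    refine ((hF T hT).2.2 x hx).2.2.2.2 ?_
    have h1 := hpos _ (hmem x hx)
    have h2 : ((((e (a + b - x) - δ : ℝ)) : ℂ) • (1 : Matrix (Fin n) (Fin n) ℂ)).PosSemidef := by
      refine Matrix.PosSemidef.one.smul ?_
      have : 0 ≤ e (a + b - x) - δ := by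
        rw [he, hδdef]
        simp only
        have : Real.exp (-(2 * L * (b - a))) ≤ Real.exp (-(2 * L * (a + b - x - a))) := by
          apply Real.exp_le_exp.2
          nlinarith [hx.1, hL]
        nlinarith
      exact_mod_cast this
    have h3 := h1.add h2
    convert h3 using 1
    rw [hX]
    simp only
    have h4 : a + b - (a + b - x) = x := by ring
    rw [h4]
    push_cast
    rw [sub_smul]
    abel
  refine ⟨T, F T, hT, (hF T hT).1, hFb, ?_, fun x hx => ?_⟩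
  · intro x hx i j
    have h1 : HasDerivWithinAt (fun y => F T y i j)
        ((T - F T x * F T x - ((ρ T x : ℝ) : ℂ) • W T x) i j) (Icc a b) x :=
      (hF T hT).2.1 x hx i j
    rw [hρ x hx] at h1
    simpa using h1
  · exact ⟨((hF T hT).2.2 x hx).2.2.1, ((hF T hT).2.2 x hx).2.2.2.1.posSemidef⟩

end Crest.Agent.R332
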