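import Crest.Agent.R332.Master
import Crest.Agent.R332.HJ

/-!
# R332 piece Fin515: the sharp inequality (assembly)

`master` + `hj_norm` (with `Wa = pot`, `e = 0`, `Λ` = any bound of the `t_j`, drop the remainder):
`negMoment ≤ C∫tr W^p - (C ∫ tr pot^p - Σ t^γ) ≤ C∫tr W^p + M ε'` for every `ε' > 0`
(`breg_nonneg`, `hs2_nonneg`). The case `N = 0` is trivial.
-/

set_option autoImplicit false
open MeasureTheory Set Matrix
open scoped ComplexOrder
open Crest.MathPhysics.LiebThirring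

namespace Crest.Agent.R332

/-- the Hamilton-Jacobi inequality applied to the full path of an `RData` -/
theorem rdata_hj {ν : ℝ} (h0 : 0 < ν) (h1 : ν < 1) {m : ℕ} (D : RData ν m) :
    (∑ j, (D.t j) ^ (ν + 1 / 2)) ≤
      sharpConst (ν + 1 / 2) *
        (∫ x in (-D.L)..D.L, tracePow (pot (lamc ν) ν⁻¹ (D.U x)) (1 + ν)) +
      sharpConst (ν + 1 / 2) * ((1 + ν) ^ (1 + ν) / ν ^ ν) *
          (∑ j, ∫ s in (-√(D.t j))..(-√(D.t j) + D.η), (D.t j - s ^ 2) ^ ν) := by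
  have hr : 1 < ν⁻¹ := (one_lt_inv₀ h0).2 h1
  have hsum : 0 ≤ ∑ i, D.t i := Finset.sum_nonneg fun i _ => (D.t_pos i).le
  have hΛ : 0 < 1 + ∑ i, D.t i := by linarith
  obtain ⟨c, K, hc, hK, h⟩ := hj_norm h0 h1 hΛ
  have hLL : -D.L ≤ D.L := by linarith [D.L_pos]
  have hpsd : ∀ x, (pot (lamc ν) ν⁻¹ (D.U x)).PosSemidef := fun x =>
    pot_posSemidef (lamc_pos h0).le _
  have key := h D.t (-D.L) D.L D.η D.F (fun x => pot (lamc ν) ν⁻¹ (D.U x)) (fun _ => 0)
    (fun i => ⟨D.t_pos i, by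
      have := Finset.single_le_sum (fun j _ => (D.t_pos j).le) (Finset.mem_univ i)
      linarith⟩) hLL D.η_pos.le ((continuous_pot hr).comp D.U_cont).continuousOn
    continuousOn_const (fun x _ => hpsd x) (fun _ _ => Matrix.PosSemidef.zero)
    (by
      have := D.F_deriv
      simpa only [sub_zero] using this) D.F_btw D.F_left D.F_right
  have hz : rtr (0 : Matrix (Fin D.N) (Fin D.N) ℂ) = 0 := by simp [rtr]
  simp only [hz, intervalIntegral.integral_zero, mul_zero, add_zero] at key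
  have hrem : 0 ≤ ∫ x in (-D.L)..D.L, (hs2 (dg D.t * D.F x - D.F x * dg D.t) +
      hs2 (((ν / (1 + ν) : ℝ) : ℂ) • pot (lamc ν) ν⁻¹ (D.U x) - (dg D.t - D.F x * D.F x)) /
        (1 + (ν / (1 + ν)) * rtr (pot (lamc ν) ν⁻¹ (D.U x)))) := by
    refine intervalIntegral.integral_nonneg hLL fun x _ => ?_
    have h2 := rtr_nonneg (hpsd x)
    exact add_nonneg (hs2_nonneg _) (div_nonneg (hs2_nonneg _) (by positivity))
  have := mul_nonneg hc.le hrem
  linarith

theorem sharp_ineq {ν : ℝ} (h0 : 0 < ν) (h1 : ν < 1) {m : ℕ}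
    (W : ℝ → Matrix (Fin m) (Fin m) ℂ) (hW : ∀ i j, Measurable fun x => W x i j)
    (hWp : ∀ x, (W x).PosSemidef) (hWi : Integrable fun x => tracePow (W x) (1 + ν))
    {n : ℕ} (φ : Fin n → ℝ → Vec m) (hφ : IsTrialFamily φ) :
    negMoment (energyMatrix W φ) (ν + 1 / 2) ≤
      sharpConst (ν + 1 / 2) * (∫ x, tracePow (W x) (1 + ν)) := by
  have hC := sharpConst_pos h0
  set M : ℝ := sharpConst (ν + 1 / 2) * ((1 + ν) ^ (1 + ν) / ν ^ ν) with hM
  have hMpos : 0 < M := by positivity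
  refine le_of_forall_pos_le_add fun δ hδ => ?_
  obtain ⟨D, -, herr, hint, hm⟩ := master h0 h1 W hW hWp hWi φ hφ (ε' := δ / M) (by positivity) 0
  have hLL : -D.L ≤ D.L := by linarith [D.L_pos]
  have e1 := rdata_hj h0 h1 D
  have e2 : 0 ≤ ∫ x in (-D.L)..D.L, hs2 (D.DU x - D.F x * D.U x) :=
    intervalIntegral.integral_nonneg hLL fun x _ => hs2_nonneg _
  have e3 : 0 ≤ ∫ x, breg (1 + ν) (W x) (potm (lamc ν) ν⁻¹ (D.U x)) :=
    integral_nonneg fun x => breg_nonneg (by linarith) (hWp x)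
      (potm_posSemidef (lamc_pos h0).le _)
  have e4 := mul_nonneg hC.le e3
  have e5 : 0 ≤ (ν + 1 / 2) * (∫ x in (-D.L)..D.L, hs2 (D.DU x - D.F x * D.U x)) :=
    mul_nonneg (by linarith) e2
  have e6 : M * (∑ j, ∫ s in (-√(D.t j))..(-√(D.t j) + D.η), (D.t j - s ^ 2) ^ ν) ≤ δ := by
    calc _ ≤ M * (δ / M) := mul_le_mul_of_nonneg_left herr hMpos.le
      _ = δ := by field_simp
  linarith

end Crest.Agent.R332
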