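import Crest.Agent.R332.H5
import Crest.Agent.R332.H6

/-!
# R332 piece H7: at most `m` eigenvalues of `T_k` stay away from 0

`corner_energy`: the corner path `F_k = F.submatrix ι ι` satisfies
`F_k' = T_k - F_k F_k - P_k - e_k`, `Wa = P_k = P.submatrix ι ι`, `e = off ι F ≥ 0`, with
`F_k(-L) = diag √t`, `F_k(L) = diag(-√t+η)`, so `hj_norm` (drop the remainder) gives
`Σ_i t(ι i)^γ ≤ C ∫ tr P_k^p + K' ∫ tr e_k + M err_k` (the error terms of the corner are part of
those of `D k`, all `≥ 0`: for `s ∈ [-√t, -√t+η]`, `t - s² ≥ 0` since `-√t+η ≤ √t`).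
`∫ tr e_k → 0` (`off_bound`, `comm_int`), `err → 0`, and by dominated convergence
(`tracePow_submatrix_le`, `dom`, `P_lim`, continuity of `tracePow`) `∫ tr P_k^p` (over
`[-L_k,L_k]`, and `P = 0` outside) tends to `∫ tr (((1+ν)/ν)(T̃ - Ft²))^p`.
`count_le`: otherwise `corner_I`, `corner_limit`, `explicit_flow` apply with `K ≥ m+1`. Then
`tr(...)^p = Σ_i (((1+ν)/ν)(τ_i - f_i²))^p`; for an active channel the summand is
`soliton ν⁻¹ √τ_i c^p` with integral `τ_i^γ/C` (`soliton_int`), for an inactive one it is 0; and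
`Σ tt^γ = Σ τ^γ` (trace of powers), so all channels are active, hence
`((1+ν)/ν)(T̃ - Ft(x)²)` is positive definite for every `x`; but it is a limit of the matrices
`P.submatrix ι ι` of determinant 0 (`det_pot_corner`, `m < K`): contradiction.
-/

set_option autoImplicit false
open MeasureTheory Set Matrix Filter Topology
open scoped ComplexOrder
open Crest.MathPhysics.LiebThirring

namespace Crest.Agent.R332

namespace H7_aux

/-- corner of a real diagonal matrix -/
lemma dg_submatrix {N K : ℕ} {ι : Fin K → Fin N} (hι : Function.Injective ι) (a : Fin N → ℝ) :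
    (dg a).submatrix ι ι = dg (fun i => a (ι i)) := by
  unfold dg
  exact Matrix.submatrix_diagonal _ ι hι

lemma P_psd {ν : ℝ} (h0 : 0 < ν) {m : ℕ} (D : RData ν m) (x : ℝ) : (D.P x).PosSemidef :=
  pot_posSemidef (lamc_pos h0).le _

lemma P_cont {ν : ℝ} (h0 : 0 < ν) (h1 : ν < 1) {m : ℕ} (D : RData ν m) :
    Continuous fun x => D.P x := by
  have hr : 1 < ν⁻¹ := (one_lt_inv₀ h0).2 h1
  exact (continuous_pot hr).comp D.U_cont

lemma sub_cont {X : Type*} [TopologicalSpace X] {N K : ℕ} (ι : Fin K → Fin N)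
    {A : X → Matrix (Fin N) (Fin N) ℂ} (h : Continuous A) :
    Continuous fun x => (A x).submatrix ι ι := h.matrix_submatrix ι ι

lemma F_contOn {ν : ℝ} {m : ℕ} (D : RData ν m) : ContinuousOn D.F (Icc (-D.L) D.L) :=
  HJ_aux.MDerivOn_continuousOn D.F_deriv

/-- the potential of the corner has integrable trace power -/
lemma corner_int {ν : ℝ} (h0 : 0 < ν) (h1 : ν < 1) {m : ℕ} (D : RData ν m) {K : ℕ}
    {ι : Fin K → Fin D.N} (hι : Function.Injective ι) {G : ℝ → ℝ} (hG : Integrable G)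
    (hdom : ∀ᵐ x : ℝ, tracePow (D.P x) (1 + ν) ≤ G x) :
    Continuous (fun x => tracePow ((D.P x).submatrix ι ι) (1 + ν)) ∧
    Integrable (fun x => tracePow ((D.P x).submatrix ι ι) (1 + ν)) ∧
    (∀ x, 0 ≤ tracePow ((D.P x).submatrix ι ι) (1 + ν)) ∧
    (∀ᵐ x : ℝ, ‖tracePow ((D.P x).submatrix ι ι) (1 + ν)‖ ≤ G x) := by
  have hpsd : ∀ x, ((D.P x).submatrix ι ι).PosSemidef := fun x => (P_psd h0 D x).submatrix ι
  have hc : Continuous (fun x => tracePow ((D.P x).submatrix ι ι) (1 + ν)) :=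
    (continuousOn_tracePow (by linarith : 0 < 1 + ν)).comp_continuous
      (sub_cont ι (P_cont h0 h1 D)) hpsd
  have hnn : ∀ x, 0 ≤ tracePow ((D.P x).submatrix ι ι) (1 + ν) := fun x =>
    tracePow_nonneg (hpsd x) _
  have hb : ∀ᵐ x : ℝ, ‖tracePow ((D.P x).submatrix ι ι) (1 + ν)‖ ≤ G x := by
    filter_upwards [hdom] with x hx
    rw [Real.norm_of_nonneg (hnn x)]
    exact (tracePow_submatrix_le hι (P_psd h0 D x) (by linarith)).trans hx
  exact ⟨hc, hG.mono' hc.aestronglyMeasurable hb, hnn, hb⟩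

/-- the integrals making up `err` are nonnegative -/
lemma err_term_nonneg {ν : ℝ} {m : ℕ} (D : RData ν m) (j : Fin D.N) :
    0 ≤ ∫ s in (-√(D.t j))..(-√(D.t j) + D.η), (D.t j - s ^ 2) ^ ν := by
  have hLL : -D.L ≤ D.L := by linarith [D.L_pos]
  have hb := D.F_btw D.L (right_mem_Icc.2 hLL)
  rw [D.F_right] at hb
  have hbe := C1_aux.bd_end hb j
  refine intervalIntegral.integral_nonneg hbe.1 fun s hs => Real.rpow_nonneg ?_ _
  have h2 : s ^ 2 ≤ (√(D.t j)) ^ 2 := by
    refine sq_le_sq' hs.1 (hs.2.trans hbe.2)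
  rw [Real.sq_sqrt (D.t_pos j).le] at h2
  linarith

lemma err_corner_le {ν : ℝ} {m : ℕ} (D : RData ν m) {K : ℕ} {ι : Fin K → Fin D.N}
    (hι : Function.Injective ι) :
    ∑ i, ∫ s in (-√(D.t (ι i)))..(-√(D.t (ι i)) + D.η), (D.t (ι i) - s ^ 2) ^ ν ≤ D.err := by
  classical
  unfold RData.err
  have h1 := Finset.sum_image (s := (Finset.univ : Finset (Fin K))) (g := ι)
    (f := fun j => ∫ s in (-√(D.t j))..(-√(D.t j) + D.η), (D.t j - s ^ 2) ^ ν)
    (fun a _ b _ h => hι h)
  rw [← h1]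
  exact Finset.sum_le_sum_of_subset_of_nonneg (Finset.subset_univ _)
    fun j _ _ => err_term_nonneg D j

/-- the Hamilton-Jacobi inequality for a corner of an `RData` -/
lemma corner_hj {ν : ℝ} (h0 : 0 < ν) (h1 : ν < 1) {m : ℕ} {Λ : ℝ} (hΛ : 0 < Λ) :
    ∃ K' : ℝ, 0 < K' ∧ ∀ (D : RData ν m), (∀ i, D.t i ≤ Λ) → ∀ {K : ℕ} {ι : Fin K → Fin D.N},
      Function.Injective ι → ∀ {α β : ℝ}, α < β → (∀ i, β ≤ D.t (ι i)) →
      (∀ j, j ∉ Set.range ι → D.t j ≤ α) →
      (∑ i, (D.t (ι i)) ^ (ν + 1 / 2)) ≤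
        sharpConst (ν + 1 / 2) *
          (∫ x in (-D.L)..D.L, tracePow ((D.P x).submatrix ι ι) (1 + ν)) +
        K' * ((∫ x in (-D.L)..D.L, hs2 (D.comm x)) / (β - α) ^ 2) +
        sharpConst (ν + 1 / 2) * ((1 + ν) ^ (1 + ν) / ν ^ ν) * D.err := by
  obtain ⟨c, K', hc, hK', h⟩ := hj_norm h0 h1 hΛ
  refine ⟨K', hK', ?_⟩
  intro D hDΛ K ι hι α β hαβ hlow hup
  have hC := sharpConst_pos h0
  have hLL : -D.L ≤ D.L := by linarith [D.L_pos]
  have hFh : ∀ x ∈ Icc (-D.L) D.L, (D.F x).IsHermitian := fun x hx => (D.F_btw x hx).isHermitian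
  have hFc := F_contOn D
  have hFcc : ContinuousOn (fun x => (D.F x).submatrix ι ι) (Icc (-D.L) D.L) :=
    (Continuous.matrix_submatrix continuous_id ι ι).comp_continuousOn hFc
  have hec : ContinuousOn (fun x => off ι (D.F x)) (Icc (-D.L) D.L) := by
    unfold off
    exact ((Continuous.matrix_submatrix continuous_id ι ι).comp_continuousOn
      (hFc.mul hFc)).sub (hFcc.mul hFcc)
  have hcommc : ContinuousOn (fun x => hs2 (D.comm x)) (Icc (-D.L) D.L) := by
    unfold RData.comm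
    exact continuous_hs2.comp_continuousOn ((continuousOn_const.mul hFc).sub
      (hFc.mul continuousOn_const))
  have key := h (fun i => D.t (ι i)) (-D.L) D.L D.η (fun x => (D.F x).submatrix ι ι)
    (fun x => (D.P x).submatrix ι ι) (fun x => off ι (D.F x))
    (fun i => ⟨D.t_pos _, hDΛ _⟩) hLL D.η_pos.le
    (sub_cont ι (P_cont h0 h1 D)).continuousOn hec
    (fun x _ => (P_psd h0 D x).submatrix ι) (fun x hx => off_posSemidef hι (hFh x hx))
    (by
      intro x hx i j
      have h2 := D.F_deriv x hx (ι i) (ι j)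
      have e1 : (dg (fun i => D.t (ι i)) - (D.F x).submatrix ι ι * (D.F x).submatrix ι ι -
          (D.P x).submatrix ι ι - off ι (D.F x)) i j =
          (dg D.t - D.F x * D.F x - pot (lamc ν) ν⁻¹ (D.U x)) (ι i) (ι j) := by
        rw [← dg_submatrix hι]
        unfold off RData.P
        simp only [Matrix.sub_apply, Matrix.submatrix_apply]
        ring
      exact h2.congr_deriv e1.symm)
    (fun x hx => btw_submatrix hι (D.F_btw x hx))
    (by
      show (D.F (-D.L)).submatrix ι ι = _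
      rw [D.F_left, dg_submatrix hι])
    (by
      show (D.F D.L).submatrix ι ι = _
      rw [D.F_right, dg_submatrix hι])
  have hpsd : ∀ x, ((D.P x).submatrix ι ι).PosSemidef := fun x => (P_psd h0 D x).submatrix ι
  have hrem : 0 ≤ ∫ x in (-D.L)..D.L, (hs2 (dg (fun i => D.t (ι i)) * (D.F x).submatrix ι ι -
        (D.F x).submatrix ι ι * dg (fun i => D.t (ι i))) +
      hs2 (((ν / (1 + ν) : ℝ) : ℂ) • (D.P x).submatrix ι ι - (dg (fun i => D.t (ι i)) -
        (D.F x).submatrix ι ι * (D.F x).submatrix ι ι)) /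
        (1 + (ν / (1 + ν)) * rtr ((D.P x).submatrix ι ι))) := by
    refine intervalIntegral.integral_nonneg hLL fun x _ => ?_
    have h2 := rtr_nonneg (hpsd x)
    exact add_nonneg (hs2_nonneg _) (div_nonneg (hs2_nonneg _) (by positivity))
  have h3 := mul_nonneg hc.le hrem
  -- the off-diagonal term
  have h4 : (∫ x in (-D.L)..D.L, rtr (off ι (D.F x))) ≤
      (∫ x in (-D.L)..D.L, hs2 (D.comm x)) / (β - α) ^ 2 := by
    rw [← intervalIntegral.integral_div]
    refine intervalIntegral.integral_mono_on hLL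
      ((continuous_rtr.comp_continuousOn hec).intervalIntegrable_of_Icc hLL)
      ((hcommc.div_const _).intervalIntegrable_of_Icc hLL) fun x hx => ?_
    exact off_bound hι (hFh x hx) D.t hαβ hlow hup
  have h5 := mul_le_mul_of_nonneg_left h4 hK'.le
  have h6 := mul_le_mul_of_nonneg_left (err_corner_le D hι)
    (by positivity : 0 ≤ sharpConst (ν + 1 / 2) * ((1 + ν) ^ (1 + ν) / ν ^ ν))
  linarith

end H7_aux

open H7_aux

theorem corner_energy {ν : ℝ} (h0 : 0 < ν) (h1 : ν < 1) {m : ℕ}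
    {W : ℝ → Matrix (Fin m) (Fin m) ℂ} {G : ℝ → ℝ} {Λ E₀ : ℝ} (hΛ : 0 < Λ)
    {D : ℕ → RData ν m}
    (hG : GoodSeq ν m W G Λ E₀ D) {K : ℕ} {ι : (k : ℕ) → Fin K → Fin (D k).N} {α β : ℝ}
    {tt : Fin K → ℝ} (hC : Corner D K ι α β tt) {Ft : ℝ → Matrix (Fin K) (Fin K) ℂ}
    (hL : CornerLimit D K ι tt Ft) :
    (∑ i, (tt i) ^ (ν + 1 / 2)) ≤ sharpConst (ν + 1 / 2) *
      ∫ x, tracePow ((((1 + ν) / ν : ℝ) : ℂ) • (dg tt - Ft x * Ft x)) (1 + ν) := by
  obtain ⟨K', hK', hhj⟩ := corner_hj (m := m) h0 h1 hΛ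
  have hCp := sharpConst_pos h0
  -- the trace powers of the corners
  have hci := fun k => corner_int h0 h1 (D k) (hC.inj k) hG.G_int
    (by filter_upwards [hG.dom] with x hx using hx k)
  have hI : Tendsto (fun k => ∫ x, tracePow (((D k).P x).submatrix (ι k) (ι k)) (1 + ν)) atTop
      (𝓝 (∫ x, tracePow ((((1 + ν) / ν : ℝ) : ℂ) • (dg tt - Ft x * Ft x)) (1 + ν))) := by
    refine tendsto_integral_of_dominated_convergence G
      (fun k => (hci k).1.aestronglyMeasurable) hG.G_int (fun k => (hci k).2.2.2) ?_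
    filter_upwards [hL.P_lim] with x hx
    have hpsd : ∀ k, ((((D k).P x).submatrix (ι k) (ι k))).PosSemidef := fun k =>
      (P_psd h0 (D k) x).submatrix (ι k)
    have hlim : ((((1 + ν) / ν : ℝ) : ℂ) • (dg tt - Ft x * Ft x)).PosSemidef :=
      isClosed_posSemidef.mem_of_tendsto hx (Eventually.of_forall hpsd)
    have hcw : ContinuousWithinAt (fun A : Matrix (Fin K) (Fin K) ℂ => tracePow A (1 + ν))
        {A | A.PosSemidef} ((((1 + ν) / ν : ℝ) : ℂ) • (dg tt - Ft x * Ft x)) :=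
      continuousOn_tracePow (by linarith : 0 < 1 + ν) _ hlim
    exact hcw.tendsto.comp (tendsto_nhdsWithin_iff.2 ⟨hx, Eventually.of_forall hpsd⟩)
  -- the inequality for each `k`
  have hineq : ∀ k, (∑ i, ((D k).t (ι k i)) ^ (ν + 1 / 2)) ≤
      sharpConst (ν + 1 / 2) *
          (∫ x, tracePow (((D k).P x).submatrix (ι k) (ι k)) (1 + ν)) +
        K' * ((∫ x in (-(D k).L)..(D k).L, hs2 ((D k).comm x)) / (β - α) ^ 2) +
        sharpConst (ν + 1 / 2) * ((1 + ν) ^ (1 + ν) / ν ^ ν) * (D k).err := by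
    intro k
    have hLL : -(D k).L ≤ (D k).L := by linarith [(D k).L_pos]
    have h2 := hhj (D k) (hG.t_le k) (hC.inj k) hC.gap (hC.lower k) (hC.upper k)
    have h3 : (∫ x in (-(D k).L)..(D k).L,
        tracePow (((D k).P x).submatrix (ι k) (ι k)) (1 + ν)) ≤
        ∫ x, tracePow (((D k).P x).submatrix (ι k) (ι k)) (1 + ν) := by
      rw [intervalIntegral.integral_of_le hLL]
      exact setIntegral_le_integral (hci k).2.1 (Eventually.of_forall (hci k).2.2.1)
    have h4 := mul_le_mul_of_nonneg_left h3 hCp.le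
    linarith
  -- limits
  have hlim1 : Tendsto (fun k => ∑ i, ((D k).t (ι k i)) ^ (ν + 1 / 2)) atTop
      (𝓝 (∑ i, (tt i) ^ (ν + 1 / 2))) :=
    tendsto_finsetSum _ fun i _ => (hC.lim i).rpow_const (Or.inr (by positivity))
  have hlim2 : Tendsto (fun k => sharpConst (ν + 1 / 2) *
          (∫ x, tracePow (((D k).P x).submatrix (ι k) (ι k)) (1 + ν)) +
        K' * ((∫ x in (-(D k).L)..(D k).L, hs2 ((D k).comm x)) / (β - α) ^ 2) +
        sharpConst (ν + 1 / 2) * ((1 + ν) ^ (1 + ν) / ν ^ ν) * (D k).err) atTop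
      (𝓝 (sharpConst (ν + 1 / 2) *
        (∫ x, tracePow ((((1 + ν) / ν : ℝ) : ℂ) • (dg tt - Ft x * Ft x)) (1 + ν)) +
        K' * (0 / (β - α) ^ 2) +
        sharpConst (ν + 1 / 2) * ((1 + ν) ^ (1 + ν) / ν ^ ν) * 0)) :=
    ((hI.const_mul _).add ((hG.comm_int.div_const _).const_mul _)).add (hG.err.const_mul _)
  have := le_of_tendsto_of_tendsto' hlim1 hlim2 hineq
  simpa using this

theorem count_le {ν : ℝ} (h0 : 0 < ν) (h1 : ν < 1) {m : ℕ}
    {W : ℝ → Matrix (Fin m) (Fin m) ℂ} {G : ℝ → ℝ} {Λ E₀ : ℝ} (hΛ : 0 < Λ)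
    {D : ℕ → RData ν m} (hG : GoodSeq ν m W G Λ E₀ D) :
    ∀ s : ℝ, 0 < s → ∀ᶠ k in atTop, (D k).cnt s ≤ m := by
  intro s hs
  by_contra hcon
  have hfreq : ∃ᶠ k in atTop, m + 1 ≤ (D k).cnt s := by
    rw [Filter.not_eventually] at hcon
    exact hcon.mono fun k hk => by omega
  obtain ⟨σ, K, ι, α, β, tt, hσ, hK, hC⟩ := corner_I h0 hG hs hfreq
  have hG1 := hG.comp hσ
  obtain ⟨σ', Ft, hσ', hL⟩ := corner_limit h0 h1 hG1 hC
  have hG2 := hG1.comp hσ'
  have hC2 := hC.comp hσ'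
  have hE := corner_energy h0 h1 hΛ hG2 hC2 hL
  have htt : ∀ i, 0 < tt i := fun i =>
    hC.pos.trans_le (ge_of_tendsto' (hC.lim i) fun k => hC.lower k i)
  obtain ⟨u, τ, f, hu, hu', htτ, hτ, hFu, hf⟩ := explicit_flow h0 tt htt Ft hL.ode hL.comm hL.btw
  have hCp := sharpConst_pos h0
  -- the limit potential is diagonal in the basis `u`
  have hdiag : ∀ x, (((1 + ν) / ν : ℝ) : ℂ) • (dg tt - Ft x * Ft x) =
      u * dg (fun i => (1 + ν) / ν * (τ i - f i x * f i x)) * uᴴ := by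
    intro x
    rw [← smul_conj_dg, htτ, hFu x, conj_dg_mul hu, ← Matrix.sub_mul, ← Matrix.mul_sub]
    congr 4
    unfold dg
    rw [Matrix.diagonal_sub]
    congr 1
    funext i
    push_cast
    rfl
  -- the scalar channels
  have hch : ∀ i, (∀ x, 0 < (1 + ν) / ν * (τ i - f i x * f i x)) ∧
      Integrable (fun x => ((1 + ν) / ν * (τ i - f i x * f i x)) ^ (1 + ν)) ∧
      sharpConst (ν + 1 / 2) * (∫ x, ((1 + ν) / ν * (τ i - f i x * f i x)) ^ (1 + ν)) =
        (τ i) ^ (ν + 1 / 2) ∨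
      (∀ x, (1 + ν) / ν * (τ i - f i x * f i x) = 0) := by
    intro i
    have hsq : √(τ i) * √(τ i) = τ i := Real.mul_self_sqrt (hτ i).le
    rcases hf i with ⟨c, hc⟩ | hc | hc
    · left
      have hcosh : ∀ y, 0 < Real.cosh y := Real.cosh_pos
      have hsol : ∀ x, (1 + ν) / ν * (τ i - f i x * f i x) = soliton ν⁻¹ (√(τ i)) c x := by
        intro x
        rw [hc x]
        unfold soliton
        have h2 := hcosh (ν⁻¹ * √(τ i) * (x - c))
        have h3 := Real.cosh_sq (ν⁻¹ * √(τ i) * (x - c))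
        rw [Real.tanh_eq_sinh_div_cosh]
        have h4 : (√(τ i)) ^ 2 = τ i := Real.sq_sqrt (hτ i).le
        rw [h4]
        have h5 : ∀ q S C : ℝ, q * q = τ i → -q * (S / C) * (-q * (S / C)) =
            τ i * (S ^ 2 / C ^ 2) := by
          intro q S C hq
          rw [← hq]
          ring
        rw [h5 _ _ _ hsq]
        have h6 : Real.sinh (ν⁻¹ * √(τ i) * (x - c)) ^ 2 =
            Real.cosh (ν⁻¹ * √(τ i) * (x - c)) ^ 2 - 1 := by linarith
        rw [h6]
        have h7 := h2.ne'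
        have h8 := h0.ne'
        generalize Real.cosh (ν⁻¹ * √(τ i) * (x - c)) = C at h7
        field_simp
        ring
      refine ⟨fun x => ?_, ?_, ?_⟩
      · rw [hsol x]
        unfold soliton
        have h2 := hcosh (ν⁻¹ * √(τ i) * (x - c))
        have h3 := Real.sqrt_pos.2 (hτ i)
        positivity
      · simp_rw [hsol]
        exact (soliton_int h0 h1 (Real.sqrt_nonneg _) c).1
      · simp_rw [hsol]
        rw [(soliton_int h0 h1 (Real.sqrt_nonneg _) c).2, Real.sqrt_eq_rpow,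
          ← Real.rpow_mul (hτ i).le]
        congr 1
        ring
    · right
      intro x
      rw [hc x, hsq]; ring
    · right
      intro x
      rw [hc x, neg_mul_neg, hsq]; ring
  -- sum of the integrals
  have hp : (0:ℝ) < 1 + ν := by linarith
  have hint : ∀ i, Integrable (fun x => ((1 + ν) / ν * (τ i - f i x * f i x)) ^ (1 + ν)) := by
    intro i
    rcases hch i with h | h
    · exact h.2.1
    · simp_rw [h, Real.zero_rpow hp.ne']
      exact integrable_zero _ _ _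
  have hE2 : (∑ i, (tt i) ^ (ν + 1 / 2)) ≤ ∑ i, sharpConst (ν + 1 / 2) *
      ∫ x, ((1 + ν) / ν * (τ i - f i x * f i x)) ^ (1 + ν) := by
    refine hE.trans (le_of_eq ?_)
    rw [← Finset.mul_sum, ← integral_finsetSum _ fun i _ => hint i]
    congr 1
    refine integral_congr_ae (Eventually.of_forall fun x => ?_)
    simp only
    rw [hdiag x, tracePow_diag hu hu']
  have htr : (∑ i, (tt i) ^ (ν + 1 / 2)) = ∑ i, (τ i) ^ (ν + 1 / 2) := by
    rw [← tracePow_diag (a := τ) hu hu', ← htτ, tracePow_eq, mpow_dg, rtr_dg]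
  rw [htr] at hE2
  -- all channels are active
  have hact : ∀ i, ∀ x, 0 < (1 + ν) / ν * (τ i - f i x * f i x) := by
    have hle : ∀ i, sharpConst (ν + 1 / 2) *
        (∫ x, ((1 + ν) / ν * (τ i - f i x * f i x)) ^ (1 + ν)) ≤ (τ i) ^ (ν + 1 / 2) := by
      intro i
      rcases hch i with h | h
      · exact h.2.2.le
      · simp_rw [h, Real.zero_rpow hp.ne']
        simp only [integral_zero, mul_zero]
        exact Real.rpow_nonneg (hτ i).le _
    have heq : ∀ i, sharpConst (ν + 1 / 2) *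
        (∫ x, ((1 + ν) / ν * (τ i - f i x * f i x)) ^ (1 + ν)) = (τ i) ^ (ν + 1 / 2) := by
      have h2 := (Finset.sum_eq_sum_iff_of_le (s := Finset.univ) fun i _ => hle i).1
        (le_antisymm (Finset.sum_le_sum fun i _ => hle i) hE2)
      exact fun i => h2 i (Finset.mem_univ i)
    intro i
    rcases hch i with h | h
    · exact h.1
    · exfalso
      have h2 := heq i
      simp_rw [h, Real.zero_rpow hp.ne'] at h2
      simp only [integral_zero, mul_zero] at h2
      exact absurd h2.symm (Real.rpow_pos_of_pos (hτ i) _).ne'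
  -- contradiction with the rank
  obtain ⟨x, hx⟩ := hL.P_lim.exists
  have hdet : ((((1 + ν) / ν : ℝ) : ℂ) • (dg tt - Ft x * Ft x)).det = 0 := by
    have hcd : Continuous fun A : Matrix (Fin K) (Fin K) ℂ => A.det := continuous_id.matrix_det
    have h2 := (hcd.tendsto _).comp hx
    refine tendsto_nhds_unique h2 ?_
    refine tendsto_const_nhds.congr fun k => ?_
    exact (det_pot_corner (by omega) _ _).symm
  have hpd : ((((1 + ν) / ν : ℝ) : ℂ) • (dg tt - Ft x * Ft x)).PosDef := by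
    rw [hdiag x]
    exact conj_dg_posDef hu' fun i => hact i x
  exact hpd.det_pos.ne' hdet

end Crest.Agent.R332
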