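import Crest.Agent.R332.H5
import Crest.Agent.R332.H6

/-!
# R332 piece H8: the limit of the corner rows of `U`, and of `W`

Hypothesis `hrest`: the eigenvalues outside the corner tend to 0.
-/

set_option autoImplicit false
open MeasureTheory Set Matrix Filter Topology
open scoped ComplexOrder
open Crest.MathPhysics.LiebThirring

namespace Crest.Agent.R332

namespace H8_aux

variable {ν : ℝ} {m K : ℕ}

theorem contOn_of_MDerivOn {a b : ℕ} {F F' : ℝ → Matrix (Fin a) (Fin b) ℂ} {s : Set ℝ}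
    (h : MDerivOn F F' s) : ContinuousOn F s := by
  refine continuousOn_pi.2 fun i => continuousOn_pi.2 fun j => ?_
  intro x hx
  exact (h x hx i j).continuousWithinAt

theorem rtr_le_tracePow {n : ℕ} {A : Matrix (Fin n) (Fin n) ℂ} (hA : A.PosSemidef) {q : ℝ}
    (hq : 1 ≤ q) : rtr A ≤ n + tracePow A q := by
  obtain ⟨u, a, hu, hu', hAd⟩ := exists_diag hA.isHermitian
  have ha := diag_nonneg hu hAd hA
  rw [hAd, tracePow_diag hu hu', rtr_conj hu, rtr_dg]
  have h1 : (n : ℝ) = ∑ _i : Fin n, (1:ℝ) := by simp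
  rw [h1, ← Finset.sum_add_distrib]
  refine Finset.sum_le_sum fun i _ => ?_
  by_cases h : a i ≤ 1
  · have := Real.rpow_nonneg (ha i) q
    linarith
  · push Not at h
    have h2 : a i ^ (1:ℝ) ≤ a i ^ q := Real.rpow_le_rpow_of_exponent_le h.le hq
    rw [Real.rpow_one] at h2
    linarith

theorem hs2_btw_le {n : ℕ} {d : Fin n → ℝ} {F : Matrix (Fin n) (Fin n) ℂ} (h : Btw d F) {s : ℝ}
    (hs : ∀ i, d i ≤ s) : hs2 F ≤ s ^ 2 * n := by
  have hF := h.isHermitian
  have key : ∀ G : Matrix (Fin n) (Fin n) ℂ, (dg d - G).PosSemidef →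
      (((s : ℝ) : ℂ) • (1 : Matrix (Fin n) (Fin n) ℂ) - G).PosSemidef := by
    intro G hG
    have h1 : (dg (fun i => s - d i)).PosSemidef := dg_posSemidef fun i => by linarith [hs i]
    have h2 : ((s : ℝ) : ℂ) • (1 : Matrix (Fin n) (Fin n) ℂ) - G =
        dg (fun i => s - d i) + (dg d - G) := by
      ext i j
      by_cases hij : i = j
      · subst hij; simp [dg]
      · simp [dg, hij]
    rw [h2]; exact h1.add hG
  have h1 := key F h.1
  have h2 := key (-F) (by rw [sub_neg_eq_add]; exact h.2)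
  have h3 := rtr_mul_nonneg h1 h2
  have h4 : (((s : ℝ) : ℂ) • (1 : Matrix (Fin n) (Fin n) ℂ) - F) *
      (((s : ℝ) : ℂ) • (1 : Matrix (Fin n) (Fin n) ℂ) - -F) =
      ((s ^ 2 : ℝ) : ℂ) • (1 : Matrix (Fin n) (Fin n) ℂ) - Fᴴ * F := by
    have hc : Commute (((s : ℝ) : ℂ) • (1 : Matrix (Fin n) (Fin n) ℂ)) F :=
      (Commute.one_left F).smul_left _
    rw [hF.eq, sub_neg_eq_add, ← hc.mul_self_sub_mul_self_eq', smul_mul_smul_comm, one_mul, sq,
      Complex.ofReal_mul]
  rw [h4, rtr_sub, ← hs2_eq_rtr, rtr_smul] at h3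
  have h5 : rtr (1 : Matrix (Fin n) (Fin n) ℂ) = n := by simp [rtr]
  rw [h5] at h3
  linarith

theorem entry_le {a b : ℕ} (A : Matrix (Fin a) (Fin b) ℂ) (i : Fin a) (j : Fin b) :
    ‖A i j‖ ≤ √(hs2 A) := by
  refine Real.le_sqrt_of_sq_le ?_
  unfold hs2
  refine (Finset.single_le_sum (f := fun j => ‖A i j‖ ^ 2) (fun j _ => by positivity)
    (Finset.mem_univ j)).trans ?_
  exact Finset.single_le_sum (f := fun i => ∑ j, ‖A i j‖ ^ 2)
    (fun i _ => Finset.sum_nonneg fun j _ => by positivity) (Finset.mem_univ i)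

theorem hs2_unitary_mul {a b : ℕ} {u : Matrix (Fin a) (Fin a) ℂ} (hu : uᴴ * u = 1)
    (A : Matrix (Fin a) (Fin b) ℂ) : hs2 (u * A) = hs2 A := by
  rw [hs2_eq_rtr, hs2_eq_rtr, Matrix.conjTranspose_mul, Matrix.mul_assoc, ← Matrix.mul_assoc uᴴ,
    hu, Matrix.one_mul]

/-- the Gram matrices converge, and the part outside the corner tends to zero -/
theorem ae_limits (h0 : 0 < ν) (h1 : ν < 1)
    {W : ℝ → Matrix (Fin m) (Fin m) ℂ} (hWp : ∀ x, (W x).PosSemidef)
    {G : ℝ → ℝ} {Λ E₀ : ℝ} {D : ℕ → RData ν m}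
    (hG : GoodSeq ν m W G Λ E₀ D) {ι : (k : ℕ) → Fin K → Fin (D k).N} {α β : ℝ}
    {tt : Fin K → ℝ} (hC : Corner D K ι α β tt)
    (hrest : ∀ s : ℝ, 0 < s → ∀ᶠ k in atTop, ∀ j, j ∉ Set.range (ι k) → (D k).t j ≤ s) :
    ∀ᵐ x : ℝ, ∃ R : Matrix (Fin m) (Fin m) ℂ, R.PosSemidef ∧
      ((lamc ν : ℝ) : ℂ) • mpow R ν⁻¹ = W x ∧
      Tendsto (fun k => ((D k).U x)ᴴ * (D k).U x) atTop (𝓝 R) ∧
      Tendsto (fun k => ((D k).U x)ᴴ * (D k).U x -
        (((D k).U x).submatrix (ι k) id)ᴴ * ((D k).U x).submatrix (ι k) id) atTop (𝓝 0) := by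
  have hl := lamc_pos h0
  have hr : 1 < ν⁻¹ := (one_lt_inv₀ h0).2 h1
  filter_upwards [hG.potm_lim, hG.dft_ae] with x hx hd
  have hlν : 0 < (lamc ν) ^ ν := Real.rpow_pos_of_pos hl ν
  set R : Matrix (Fin m) (Fin m) ℂ := ((((lamc ν) ^ ν)⁻¹ : ℝ) : ℂ) • mpow (W x) ν with hR
  have hWν : (mpow (W x) ν).PosSemidef := mpow_posSemidef (hWp x) ν
  have hRpsd : R.PosSemidef := by
    refine hWν.smul ?_
    rw [Complex.zero_le_real]; positivity
  have hpow : ((lamc ν : ℝ) : ℂ) • mpow R ν⁻¹ = W x := by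
    rw [hR, mpow_smul hWν (by positivity), mpow_mpow (hWp x), mul_inv_cancel₀ h0.ne',
      mpow_one (hWp x), smul_smul, ← Complex.ofReal_mul]
    have : lamc ν * (((lamc ν) ^ ν)⁻¹) ^ ν⁻¹ = 1 := by
      rw [Real.inv_rpow hlν.le, ← Real.rpow_mul hl.le, mul_inv_cancel₀ h0.ne', Real.rpow_one,
        mul_inv_cancel₀ hl.ne']
    rw [this]; simp
  have hA : Tendsto (fun k => ((D k).U x)ᴴ * (D k).U x) atTop (𝓝 R) := by
    have hcw : ContinuousWithinAt (fun A : Matrix (Fin m) (Fin m) ℂ => mpow A ν)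
        {A | A.PosSemidef} (W x) := continuousOn_mpow h0 _ (hWp x)
    have h2 : Tendsto (fun k => mpow (potm (lamc ν) ν⁻¹ ((D k).U x)) ν) atTop
        (𝓝 (mpow (W x) ν)) :=
      hcw.tendsto.comp (tendsto_nhdsWithin_iff.2
        ⟨hx, Eventually.of_forall fun k => potm_posSemidef hl.le _⟩)
    have h3 : ∀ k, ((D k).U x)ᴴ * (D k).U x =
        ((((lamc ν) ^ ν)⁻¹ : ℝ) : ℂ) • mpow (potm (lamc ν) ν⁻¹ ((D k).U x)) ν := by
      intro k
      have h4 := mpow_potm hl hr ((D k).U x)
      rw [inv_inv] at h4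
      rw [h4, smul_smul, ← Complex.ofReal_mul, inv_mul_cancel₀ hlν.ne']
      simp
    simp only [h3]
    exact h2.const_smul _
  refine ⟨R, hRpsd, hpow, hA, ?_⟩
  refine rho_small (s := ν⁻¹ - 1) (by linarith) (fun k => ((D k).U x)ᴴ * (D k).U x) _ R
    (fun k => MT_aux.star_mul_psd _) (fun k => rows_le (hC.inj k) _) (fun k => ?_) hA ?_
  · rw [sub_sub_cancel]
    exact MT_aux.star_mul_psd _
  -- the weighted trace tends to zero
  have hupper : ∀ δ : ℝ, 0 < δ → ∀ᶠ k in atTop,
      rtr (mpow (((D k).U x)ᴴ * (D k).U x) (ν⁻¹ - 1) * (((D k).U x)ᴴ * (D k).U x -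
        (((D k).U x).submatrix (ι k) id)ᴴ * ((D k).U x).submatrix (ι k) id)) < δ := by
    intro δ hδ
    set c : ℝ := (lamc ν)⁻¹ * (m * ((1 + ν) / ν)) with hc
    have hc0 : 0 ≤ c := by positivity
    have hs : 0 < δ / (2 * (c + 1)) := by positivity
    have hsq : Tendsto (fun k => √(hs2 ((D k).dft x))) atTop (𝓝 0) := by
      have := (Real.continuous_sqrt.tendsto 0).comp hd
      rwa [Real.sqrt_zero] at this
    obtain ⟨k₀, hk₀⟩ := exists_nat_ge |x|
    filter_upwards [hrest _ hs, hsq.eventually (gt_mem_nhds hs), eventually_ge_atTop k₀]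
      with k hk1 hk2 hk3
    have hxL : x ∈ Icc (-(D k).L) (D k).L := by
      have h5 : |x| ≤ (D k).L := hk₀.trans ((Nat.cast_le.2 hk3).trans (hG.L_ge k))
      exact abs_le.1 h5
    have hF := ((D k).F_btw x hxL).isHermitian
    have h6 := rest_small (ν := ν) h0 hl hr (hC.inj k) hF (D k).t hs.le hk1 ((D k).U x)
    rw [rest_trace] at h6
    have h7 : (hs2 (((ν / (1 + ν) : ℝ) : ℂ) • pot (lamc ν) ν⁻¹ ((D k).U x) -
        (dg (D k).t - (D k).F x * (D k).F x))) = hs2 ((D k).dft x) := rfl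
    rw [h7] at h6
    set y := rtr (mpow (((D k).U x)ᴴ * (D k).U x) (ν⁻¹ - 1) * (((D k).U x)ᴴ * (D k).U x -
        (((D k).U x).submatrix (ι k) id)ᴴ * ((D k).U x).submatrix (ι k) id)) with hy
    have h8 : y ≤ c * (δ / (2 * (c + 1)) + √(hs2 ((D k).dft x))) := by
      have h9 : y = (lamc ν)⁻¹ * (lamc ν * y) := by
        rw [← mul_assoc, inv_mul_cancel₀ hl.ne', one_mul]
      rw [h9, hc]
      have h10 := mul_le_mul_of_nonneg_left h6 (inv_nonneg.2 hl.le)
      refine h10.trans (le_of_eq ?_)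
      ring
    have h11 : c * (δ / (2 * (c + 1)) + √(hs2 ((D k).dft x))) ≤
        c * (δ / (2 * (c + 1)) + δ / (2 * (c + 1))) := by
      refine mul_le_mul_of_nonneg_left ?_ hc0
      linarith
    have h12 : c * (δ / (2 * (c + 1)) + δ / (2 * (c + 1))) < δ := by
      have h13 : c * (δ / (2 * (c + 1)) + δ / (2 * (c + 1))) = c * δ / (c + 1) := by
        field_simp; ring
      rw [h13, div_lt_iff₀ (by linarith)]
      nlinarith
    linarith
  rw [Metric.tendsto_atTop]
  intro δ hδ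
  obtain ⟨k₀, hk₀⟩ := eventually_atTop.1 (hupper δ hδ)
  refine ⟨k₀, fun k hk => ?_⟩
  rw [Real.dist_eq, sub_zero, abs_of_nonneg]
  · exact hk₀ k hk
  · exact rtr_mul_nonneg (mpow_posSemidef (MT_aux.star_mul_psd _) _) (rows_le (hC.inj k) _)

theorem real_bound {a o d g δ H : ℝ} (hδ : 0 < δ) (ha : 0 ≤ a) (ho : 0 ≤ o) (hd : 0 ≤ d)
    (hg : 0 ≤ g) (hH : H ≤ 2 * a + 4 * (o * g) + 4 * (d * g)) :
    √H ≤ δ * (1 + g) + (a + o + d) / δ := by
  refine Real.sqrt_le_iff.2 ⟨by positivity, ?_⟩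
  have h1 : (δ * (1 + g) + (a + o + d) / δ) ^ 2 =
      (δ * (1 + g) - (a + o + d) / δ) ^ 2 + 4 * ((1 + g) * (a + o + d)) := by
    field_simp
    ring
  rw [h1]
  have h2 := sq_nonneg (δ * (1 + g) - (a + o + d) / δ)
  nlinarith [mul_nonneg ho hg, mul_nonneg hd hg, mul_nonneg ha hg]

/-- the pointwise bound on the defect of the corner rows -/
theorem pointwise {D : RData ν m} {ι : Fin K → Fin D.N} (hι : Function.Injective ι)
    {α β : ℝ} (hαβ : α < β) (hlow : ∀ i, β ≤ D.t (ι i)) (hup : ∀ j, j ∉ Set.range ι → D.t j ≤ α)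
    (Ft : Matrix (Fin K) (Fin K) ℂ) {x : ℝ} (hx : x ∈ Icc (-D.L) D.L) {δ : ℝ} (hδ : 0 < δ) :
    √(hs2 ((D.DU x).submatrix ι id - Ft * (D.U x).submatrix ι id)) ≤
      δ * (1 + rtr ((D.U x)ᴴ * D.U x)) +
        (hs2 (D.DU x - D.F x * D.U x) + hs2 (D.comm x) / (β - α) ^ 2 +
          hs2 ((D.F x).submatrix ι ι - Ft)) / δ := by
  have hF := (D.F_btw x hx).isHermitian
  have hA : 0 ≤ rtr ((D.U x)ᴴ * D.U x) := rtr_nonneg (MT_aux.star_mul_psd _)
  have hoff := off_bound hι hF D.t hαβ hlow hup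
  have hoff0 : 0 ≤ rtr (off ι (D.F x)) := rtr_nonneg (off_posSemidef hι hF)
  have hcomm : hs2 (dg D.t * D.F x - D.F x * dg D.t) = hs2 (D.comm x) := rfl
  rw [hcomm] at hoff
  have hV : rtr ((D.U x)ᴴ * D.U x - ((D.U x).submatrix ι id)ᴴ * (D.U x).submatrix ι id) ≤
      rtr ((D.U x)ᴴ * D.U x) := by
    rw [rtr_sub]
    have := rtr_nonneg (MT_aux.star_mul_psd ((D.U x).submatrix ι id))
    linarith
  have hV' : hs2 ((D.U x).submatrix ι id) ≤ rtr ((D.U x)ᴴ * D.U x) := by
    rw [hs2_eq_rtr]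
    have := rtr_nonneg (rows_le hι (D.U x))
    rw [rtr_sub] at this
    linarith
  have hq := off_mul hι hF (D.U x)
  have e1 : (D.DU x).submatrix ι id - Ft * (D.U x).submatrix ι id =
      (D.DU x - D.F x * D.U x).submatrix ι id +
        (((D.F x * D.U x).submatrix ι id - (D.F x).submatrix ι ι * (D.U x).submatrix ι id) +
          ((D.F x).submatrix ι ι - Ft) * (D.U x).submatrix ι id) := by
    rw [Matrix.submatrix_sub, Matrix.sub_mul]
    simp only [Pi.sub_apply]
    abel
  have h1 : hs2 ((D.DU x).submatrix ι id - Ft * (D.U x).submatrix ι id) ≤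
      2 * hs2 (D.DU x - D.F x * D.U x) +
        4 * (hs2 (D.comm x) / (β - α) ^ 2 * rtr ((D.U x)ᴴ * D.U x)) +
        4 * (hs2 ((D.F x).submatrix ι ι - Ft) * rtr ((D.U x)ᴴ * D.U x)) := by
    rw [e1]
    have h2 := hs2_add_le ((D.DU x - D.F x * D.U x).submatrix ι id)
      (((D.F x * D.U x).submatrix ι id - (D.F x).submatrix ι ι * (D.U x).submatrix ι id) +
          ((D.F x).submatrix ι ι - Ft) * (D.U x).submatrix ι id)
    have h3 := hs2_add_le ((D.F x * D.U x).submatrix ι id -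
      (D.F x).submatrix ι ι * (D.U x).submatrix ι id)
      (((D.F x).submatrix ι ι - Ft) * (D.U x).submatrix ι id)
    have h4 := hs2_rows_le hι (D.DU x - D.F x * D.U x)
    have h5 := hs2_mul_le ((D.F x).submatrix ι ι - Ft) ((D.U x).submatrix ι id)
    have h6 : hs2 ((D.F x).submatrix ι ι - Ft) * hs2 ((D.U x).submatrix ι id) ≤
        hs2 ((D.F x).submatrix ι ι - Ft) * rtr ((D.U x)ᴴ * D.U x) :=
      mul_le_mul_of_nonneg_left hV' (hs2_nonneg _)
    have h7 : rtr (off ι (D.F x)) *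
        rtr ((D.U x)ᴴ * D.U x - ((D.U x).submatrix ι id)ᴴ * (D.U x).submatrix ι id) ≤
        hs2 (D.comm x) / (β - α) ^ 2 * rtr ((D.U x)ᴴ * D.U x) :=
      mul_le_mul hoff hV (rtr_nonneg (rows_le hι _)) (by
        have := hs2_nonneg (D.comm x); positivity)
    linarith
  have hcn := hs2_nonneg (D.comm x)
  exact real_bound hδ (hs2_nonneg _) (by positivity) (hs2_nonneg _) hA h1


theorem Ft_cont {Ft : ℝ → Matrix (Fin K) (Fin K) ℂ} {G' : ℝ → Matrix (Fin K) (Fin K) ℂ}
    (h : ∀ x i j, HasDerivAt (fun y => Ft y i j) (G' x i j) x) : Continuous Ft :=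
  continuous_matrix fun i j => continuous_iff_continuousAt.2 fun x => (h x i j).continuousAt

/-- the defect of the corner rows tends to zero in `L¹_loc` -/
theorem L1 (h0 : 0 < ν) (h1 : ν < 1)
    {W : ℝ → Matrix (Fin m) (Fin m) ℂ} {G : ℝ → ℝ} {Λ E₀ : ℝ} {D : ℕ → RData ν m}
    (hG : GoodSeq ν m W G Λ E₀ D) {ι : (k : ℕ) → Fin K → Fin (D k).N} {α β : ℝ}
    {tt : Fin K → ℝ} (hC : Corner D K ι α β tt) {Ft : ℝ → Matrix (Fin K) (Fin K) ℂ}
    (hL : CornerLimit D K ι tt Ft) {X : ℝ} (hX : 0 ≤ X) :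
    Tendsto (fun k => ∫ x in (-X)..X, √(hs2 (((D k).DU x).submatrix (ι k) id -
      Ft x * ((D k).U x).submatrix (ι k) id))) atTop (𝓝 0) := by
  have hl := lamc_pos h0
  have hr : 1 < ν⁻¹ := (one_lt_inv₀ h0).2 h1
  have hXX : -X ≤ X := by linarith
  have hba : 0 < β - α := by linarith [hC.gap]
  have hFtc : Continuous Ft := Ft_cont hL.ode
  have hLX : ∀ᶠ k in atTop, X ≤ (D k).L := by
    obtain ⟨k₀, hk₀⟩ := exists_nat_ge X
    filter_upwards [eventually_ge_atTop k₀] with k hk
    exact hk₀.trans ((Nat.cast_le.2 hk).trans (hG.L_ge k))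
  have hFc : ∀ k, ContinuousOn (D k).F (Icc (-(D k).L) (D k).L) := fun k =>
    contOn_of_MDerivOn (D k).F_deriv
  have hsubI : ∀ {k}, X ≤ (D k).L → Icc (-X) X ⊆ Icc (-(D k).L) (D k).L := fun h =>
    Icc_subset_Icc (by linarith) h
  -- the three error terms
  have hA : Tendsto (fun k => ∫ x in (-X)..X, hs2 ((D k).DU x - (D k).F x * (D k).U x)) atTop
      (𝓝 0) := by
    refine squeeze_zero' (Eventually.of_forall fun k =>
      intervalIntegral.integral_nonneg hXX fun x _ => hs2_nonneg _) ?_ hG.du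
    filter_upwards [hLX] with k hk
    refine intervalIntegral.integral_mono_interval (by linarith) hXX hk
      (Eventually.of_forall fun x => hs2_nonneg _) ?_
    refine ContinuousOn.intervalIntegrable_of_Icc (by linarith) ?_
    exact continuous_hs2.comp_continuousOn ((D k).DU_cont.continuousOn.sub
      (M2_aux.continuousOn_mul (hFc k) (D k).U_cont.continuousOn))
  have hCc : Tendsto (fun k => ∫ x in (-X)..X, hs2 ((D k).comm x)) atTop (𝓝 0) := by
    refine squeeze_zero' (Eventually.of_forall fun k =>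
      intervalIntegral.integral_nonneg hXX fun x _ => hs2_nonneg _) ?_ hG.comm_int
    filter_upwards [hLX] with k hk
    refine intervalIntegral.integral_mono_interval (by linarith) hXX hk
      (Eventually.of_forall fun x => hs2_nonneg _) ?_
    refine ContinuousOn.intervalIntegrable_of_Icc (by linarith) ?_
    unfold RData.comm
    exact continuous_hs2.comp_continuousOn ((continuousOn_const.mul (hFc k)).sub
      ((hFc k).mul continuousOn_const))
  have hsub : ∀ k, ContinuousOn (fun x => ((D k).F x).submatrix (ι k) (ι k))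
      (Icc (-(D k).L) (D k).L) := fun k =>
    (Continuous.matrix_submatrix continuous_id (ι k) (ι k)).comp_continuousOn (hFc k)
  have hDc : ∀ k, ContinuousOn (fun x => hs2 (((D k).F x).submatrix (ι k) (ι k) - Ft x))
      (Icc (-(D k).L) (D k).L) := fun k =>
    continuous_hs2.comp_continuousOn ((hsub k).sub hFtc.continuousOn)
  have htt : ∀ i, tt i ≤ Λ := fun i => le_of_tendsto' (hC.lim i) fun k => hG.t_le k _
  have hD : Tendsto (fun k => ∫ x in (-X)..X, hs2 (((D k).F x).submatrix (ι k) (ι k) - Ft x))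
      atTop (𝓝 0) := by
    have h2 : Tendsto (fun k => ∫ x in (-X)..X,
        hs2 (((D k).F x).submatrix (ι k) (ι k) - Ft x)) atTop (𝓝 (∫ _x in (-X)..X, (0:ℝ))) := by
      refine intervalIntegral.tendsto_integral_filter_of_dominated_convergence
        (fun _ => 2 * ((√Λ) ^ 2 * K) + 2 * ((√Λ) ^ 2 * K)) ?_ ?_
        intervalIntegrable_const ?_
      · filter_upwards [hLX] with k hk
        rw [uIoc_of_le hXX]
        exact (((hDc k).mono (hsubI hk)).mono Ioc_subset_Icc_self).aestronglyMeasurable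
          measurableSet_Ioc
      · filter_upwards [hLX] with k hk
        refine Eventually.of_forall fun x hx => ?_
        rw [uIoc_of_le hXX] at hx
        have hx' := hsubI hk (Ioc_subset_Icc_self hx)
        rw [Real.norm_of_nonneg (hs2_nonneg _)]
        have h3 := hs2_add_le (((D k).F x).submatrix (ι k) (ι k)) (-Ft x)
        rw [← sub_eq_add_neg] at h3
        have h4 : hs2 (-Ft x) = hs2 (Ft x) := by simp [hs2]
        have h5 := hs2_btw_le (btw_submatrix (hC.inj k) ((D k).F_btw x hx')) (s := √Λ)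
          (fun i => Real.sqrt_le_sqrt (hG.t_le k _))
        have h6 := hs2_btw_le (hL.btw x) (s := √Λ) (fun i => Real.sqrt_le_sqrt (htt i))
        linarith
      · refine Eventually.of_forall fun x _ => ?_
        have h3 := (continuous_hs2.tendsto (Ft x - Ft x)).comp
          ((hL.F_lim x).sub_const (Ft x))
        rw [sub_self] at h3
        have h4 : hs2 (0 : Matrix (Fin K) (Fin K) ℂ) = 0 := by simp [hs2]
        rw [h4] at h3
        exact h3
    simpa using h2
  -- the constant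
  set g : ℝ → ℝ := fun x => 1 + (m + ((lamc ν) ^ (1 + ν))⁻¹ * G x) with hg
  have hgI : IntervalIntegrable g volume (-X) X := by
    refine intervalIntegrable_const.add (intervalIntegrable_const.add ?_)
    exact (hG.G_int.const_mul _).intervalIntegrable
  have hglow : ∀ᵐ x : ℝ, ∀ k, 1 + rtr (((D k).U x)ᴴ * (D k).U x) ≤ g x := by
    filter_upwards [hG.dom] with x hx k
    have h2 : 0 < (lamc ν) ^ (1 + ν) := Real.rpow_pos_of_pos hl _
    have h3 := hx k
    unfold RData.P at h3
    rw [tracePow_pot hl hr (by linarith)] at h3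
    have h4 := rtr_le_tracePow (MT_aux.star_mul_psd ((D k).U x)) (q := ν⁻¹ * (1 + ν))
      (by nlinarith)
    have h5 : tracePow (((D k).U x)ᴴ * (D k).U x) (ν⁻¹ * (1 + ν)) ≤
        ((lamc ν) ^ (1 + ν))⁻¹ * G x := by
      rw [le_inv_mul_iff₀ h2]
      exact h3
    simp only [hg]
    linarith
  set C : ℝ := ∫ x in (-X)..X, |g x| with hCdef
  have hC0 : 0 ≤ C := intervalIntegral.integral_nonneg hXX fun x _ => abs_nonneg _
  have hmain : ∀ δ : ℝ, 0 < δ → ∀ᶠ k in atTop,
      (∫ x in (-X)..X, √(hs2 (((D k).DU x).submatrix (ι k) id -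
        Ft x * ((D k).U x).submatrix (ι k) id))) ≤ δ * C +
      ((∫ x in (-X)..X, hs2 ((D k).DU x - (D k).F x * (D k).U x)) +
        (∫ x in (-X)..X, hs2 ((D k).comm x)) / (β - α) ^ 2 +
        (∫ x in (-X)..X, hs2 (((D k).F x).submatrix (ι k) (ι k) - Ft x))) / δ := by
    intro δ hδ
    filter_upwards [hLX] with k hk
    have i1 : IntervalIntegrable (fun x => hs2 ((D k).DU x - (D k).F x * (D k).U x)) volume
        (-X) X := by
      refine ContinuousOn.intervalIntegrable_of_Icc hXX ?_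
      exact (continuous_hs2.comp_continuousOn ((D k).DU_cont.continuousOn.sub
        (M2_aux.continuousOn_mul (hFc k) (D k).U_cont.continuousOn))).mono (hsubI hk)
    have i2 : IntervalIntegrable (fun x => hs2 ((D k).comm x)) volume (-X) X := by
      refine ContinuousOn.intervalIntegrable_of_Icc hXX ?_
      unfold RData.comm
      exact (continuous_hs2.comp_continuousOn ((continuousOn_const.mul (hFc k)).sub
        ((hFc k).mul continuousOn_const))).mono (hsubI hk)
    have i3 : IntervalIntegrable (fun x => hs2 (((D k).F x).submatrix (ι k) (ι k) - Ft x)) volume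
        (-X) X := ((hDc k).mono (hsubI hk)).intervalIntegrable_of_Icc hXX
    have i4 : IntervalIntegrable (fun x => √(hs2 (((D k).DU x).submatrix (ι k) id -
        Ft x * ((D k).U x).submatrix (ι k) id))) volume (-X) X := by
      refine Continuous.intervalIntegrable ?_ _ _
      refine Real.continuous_sqrt.comp (continuous_hs2.comp ?_)
      exact ((D k).DU_cont.matrix_submatrix (ι k) id).sub
        (hFtc.matrix_mul ((D k).U_cont.matrix_submatrix (ι k) id))
    rw [hCdef, ← intervalIntegral.integral_const_mul, ← intervalIntegral.integral_div,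
      ← intervalIntegral.integral_add i1 (i2.div_const _),
      ← intervalIntegral.integral_add (i1.add (i2.div_const _)) i3,
      ← intervalIntegral.integral_div, ← intervalIntegral.integral_add (hgI.abs.const_mul _)
        (((i1.add (i2.div_const _)).add i3).div_const _)]
    refine intervalIntegral.integral_mono_ae_restrict hXX i4 ?_ ?_
    · exact (hgI.abs.const_mul _).add (((i1.add (i2.div_const _)).add i3).div_const _)
    · refine (ae_restrict_iff' measurableSet_Icc).2 ?_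
      filter_upwards [hglow] with x hx hxI
      have h2 := pointwise (hC.inj k) hC.gap (hC.lower k) (hC.upper k) (Ft x) (hsubI hk hxI) hδ
      have h3 := mul_le_mul_of_nonneg_left ((hx k).trans (le_abs_self _)) hδ.le
      exact h2.trans (add_le_add h3 le_rfl)
  have hS : Tendsto (fun k => (∫ x in (-X)..X, hs2 ((D k).DU x - (D k).F x * (D k).U x)) +
        (∫ x in (-X)..X, hs2 ((D k).comm x)) / (β - α) ^ 2 +
        (∫ x in (-X)..X, hs2 (((D k).F x).submatrix (ι k) (ι k) - Ft x))) atTop (𝓝 0) := by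
    have := (hA.add (hCc.div_const ((β - α) ^ 2))).add hD
    simpa using this
  refine tendsto_order.2 ⟨fun a ha => Eventually.of_forall fun k => ha.trans_le
    (intervalIntegral.integral_nonneg hXX fun x _ => Real.sqrt_nonneg _), fun a ha => ?_⟩
  have hδ : 0 < a / (2 * (C + 1)) := by positivity
  have h2 : ∀ᶠ k in atTop, ((∫ x in (-X)..X, hs2 ((D k).DU x - (D k).F x * (D k).U x)) +
        (∫ x in (-X)..X, hs2 ((D k).comm x)) / (β - α) ^ 2 +
        (∫ x in (-X)..X, hs2 (((D k).F x).submatrix (ι k) (ι k) - Ft x))) /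
          (a / (2 * (C + 1))) < a / 2 := by
    have h3 := hS.div_const (a / (2 * (C + 1)))
    rw [zero_div] at h3
    exact h3.eventually (gt_mem_nhds (by positivity))
  filter_upwards [hmain _ hδ, h2] with k hk1 hk2
  have h4 : a / (2 * (C + 1)) * C ≤ a / 2 := by
    have h5 : a / (2 * (C + 1)) * C = a / 2 * (C / (C + 1)) := by
      field_simp
    rw [h5]
    have h6 : C / (C + 1) ≤ 1 := by
      rw [div_le_one (by linarith)]; linarith
    nlinarith
  linarith


/-- a fundamental system of the linear flow `V' = Ft V` -/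
theorem fund {u : Matrix (Fin K) (Fin K) ℂ} (hu : uᴴ * u = 1) (hu' : u * uᴴ = 1)
    {f : Fin K → ℝ → ℝ} (hf : ∀ i, Continuous (f i)) {Ft : ℝ → Matrix (Fin K) (Fin K) ℂ}
    (hFt : ∀ x, Ft x = u * dg (fun i => f i x) * uᴴ) :
    ∃ M N : ℝ → Matrix (Fin K) (Fin K) ℂ,
      (∀ x i j, HasDerivAt (fun y => M y i j) ((-(M x * Ft x)) i j) x) ∧
      (∀ x i j, HasDerivAt (fun y => N y i j) ((Ft x * N x) i j) x) ∧
      (∀ x, M x * N x = 1) ∧ (∀ x, N x * M x = 1) := by
  set φ : Fin K → ℝ → ℝ := fun i x => ∫ s in (0:ℝ)..x, f i s with hφ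
  have hφd : ∀ i x, HasDerivAt (φ i) (f i x) x := fun i x =>
    ((hf i).integral_hasStrictDerivAt 0 x).hasDerivAt
  have e1 : ∀ i x, HasDerivAt (fun y => ((Real.exp (-φ i y) : ℝ) : ℂ))
      ((-(f i x * Real.exp (-φ i x)) : ℝ) : ℂ) x := by
    intro i x
    have := ((hφd i x).neg.exp).ofReal_comp
    refine this.congr_deriv ?_
    push_cast [Pi.neg_apply]; ring
  have e2 : ∀ i x, HasDerivAt (fun y => ((Real.exp (φ i y) : ℝ) : ℂ))
      ((f i x * Real.exp (φ i x) : ℝ) : ℂ) x := by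
    intro i x
    have := ((hφd i x).exp).ofReal_comp
    refine this.congr_deriv ?_
    push_cast; ring
  refine ⟨fun x => dg (fun i => Real.exp (-φ i x)) * uᴴ,
    fun x => u * dg (fun i => Real.exp (φ i x)), ?_, ?_, ?_, ?_⟩
  · intro x i j
    have h1 : -(dg (fun i => Real.exp (-φ i x)) * uᴴ * Ft x) =
        dg (fun i => -(f i x * Real.exp (-φ i x))) * uᴴ := by
      rw [hFt x]
      have h2 : dg (fun i => Real.exp (-φ i x)) * uᴴ * (u * dg (fun i => f i x) * uᴴ) =
          dg (fun i => Real.exp (-φ i x)) * ((uᴴ * u) * dg (fun i => f i x)) * uᴴ := by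
        simp only [Matrix.mul_assoc]
      rw [h2, hu, Matrix.one_mul, dg_mul, ← Matrix.neg_mul]
      congr 1
      ext i j
      by_cases hij : i = j
      · subst hij; simp [dg, mul_comm]
      · simp [dg, hij]
    simp only
    rw [h1, H6_aux.dg_mul_apply]
    have h3 : (fun y => (dg (fun i => Real.exp (-φ i y)) * uᴴ) i j) =
        fun y => ((Real.exp (-φ i y) : ℝ) : ℂ) * uᴴ i j := by
      funext y
      rw [H6_aux.dg_mul_apply]
    rw [h3]
    exact (e1 i x).mul_const _
  · intro x i j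
    have h1 : Ft x * (u * dg (fun i => Real.exp (φ i x))) =
        u * dg (fun i => f i x * Real.exp (φ i x)) := by
      rw [hFt x]
      have h2 : u * dg (fun i => f i x) * uᴴ * (u * dg (fun i => Real.exp (φ i x))) =
          u * (dg (fun i => f i x) * ((uᴴ * u) * dg (fun i => Real.exp (φ i x)))) := by
        simp only [Matrix.mul_assoc]
      rw [h2, hu, Matrix.one_mul, dg_mul]
    simp only
    rw [h1, H6_aux.mul_dg_apply]
    have h3 : (fun y => (u * dg (fun i => Real.exp (φ i y))) i j) =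
        fun y => u i j * ((Real.exp (φ j y) : ℝ) : ℂ) := by
      funext y
      rw [H6_aux.mul_dg_apply]
    rw [h3]
    exact (e2 j x).const_mul _
  · intro x
    have h2 : dg (fun i => Real.exp (-φ i x)) * uᴴ * (u * dg (fun i => Real.exp (φ i x))) =
          dg (fun i => Real.exp (-φ i x)) * ((uᴴ * u) * dg (fun i => Real.exp (φ i x))) := by
        simp only [Matrix.mul_assoc]
    simp only
    rw [h2, hu, Matrix.one_mul, dg_mul]
    have h3 : (fun i => Real.exp (-φ i x) * Real.exp (φ i x)) = fun _ => (1:ℝ) := by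
      funext i
      rw [← Real.exp_add]; simp
    rw [h3]
    simp [dg]
  · intro x
    have h2 : u * dg (fun i => Real.exp (φ i x)) * (dg (fun i => Real.exp (-φ i x)) * uᴴ) =
          u * (dg (fun i => Real.exp (φ i x)) * dg (fun i => Real.exp (-φ i x))) * uᴴ := by
        simp only [Matrix.mul_assoc]
    simp only
    rw [h2, dg_mul]
    have h3 : (fun i => Real.exp (φ i x) * Real.exp (-φ i x)) = fun _ => (1:ℝ) := by
      funext i
      rw [← Real.exp_add]; simp
    rw [h3]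
    have h4 : dg (fun _ : Fin K => (1:ℝ)) = 1 := by simp [dg]
    rw [h4, Matrix.mul_one, hu']

/-- `(M V)' = M (V' - Ft V)` -/
theorem deriv_MV {M Ft : ℝ → Matrix (Fin K) (Fin K) ℂ}
    (hM : ∀ x i j, HasDerivAt (fun y => M y i j) ((-(M x * Ft x)) i j) x)
    {V DV : ℝ → Matrix (Fin K) (Fin m) ℂ}
    (hV : ∀ x i j, HasDerivAt (fun y => V y i j) (DV x i j) x) (x : ℝ) (i : Fin K) (j : Fin m) :
    HasDerivAt (fun y => (M y * V y) i j) ((M x * (DV x - Ft x * V x)) i j) x := by
  have h1 : M2_aux.HD M (-(M x * Ft x)) univ x := fun i j => (hM x i j).hasDerivWithinAt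
  have h2 : M2_aux.HD V (DV x) univ x := fun i j => (hV x i j).hasDerivWithinAt
  have h3 := hasDerivWithinAt_univ.1 (h1.mul h2 i j)
  have h4 : -(M x * Ft x) * V x + M x * DV x = M x * (DV x - Ft x * V x) := by
    rw [Matrix.mul_sub, ← Matrix.mul_assoc, Matrix.neg_mul]
    abel
  rw [h4] at h3
  exact h3

/-- the rows, transported by the flow, are asymptotically constant -/
theorem flow_const {M Ft : ℝ → Matrix (Fin K) (Fin K) ℂ}
    (hM : ∀ x i j, HasDerivAt (fun y => M y i j) ((-(M x * Ft x)) i j) x)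
    (hFt : Continuous Ft)
    {V DV : ℕ → ℝ → Matrix (Fin K) (Fin m) ℂ}
    (hV : ∀ k x i j, HasDerivAt (fun y => V k y i j) (DV k x i j) x)
    (hDV : ∀ k, Continuous (DV k))
    (hint : ∀ X : ℝ, 0 ≤ X → Tendsto (fun k => ∫ x in (-X)..X, √(hs2 (DV k x - Ft x * V k x)))
      atTop (𝓝 0)) (x₀ x : ℝ) :
    Tendsto (fun k => M x * V k x - M x₀ * V k x₀) atTop (𝓝 0) := by
  have hMc : Continuous M := Ft_cont hM
  have hVc : ∀ k, Continuous (V k) := fun k =>
    continuous_matrix fun i j => continuous_iff_continuousAt.2 fun x => (hV k x i j).continuousAt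
  set X : ℝ := max |x₀| |x| with hX
  have hX0 : 0 ≤ X := (abs_nonneg _).trans (le_max_left _ _)
  have hXX : -X ≤ X := by linarith
  have hx : x ∈ Icc (-X) X := abs_le.1 (le_max_right _ _)
  have hx₀ : x₀ ∈ Icc (-X) X := abs_le.1 (le_max_left _ _)
  refine tendsto_pi_nhds.2 fun i => tendsto_pi_nhds.2 fun j => ?_
  show Tendsto (fun k => (M x * V k x - M x₀ * V k x₀) i j) atTop (𝓝 0)
  -- a bound for `M`
  have hcb : ContinuousOn (fun y => ∑ l, ‖M y i l‖) (Icc (-X) X) := by
    refine Continuous.continuousOn ?_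
    exact continuous_finsetSum _ fun l _ => (hMc.matrix_elem i l).norm
  obtain ⟨B, hB⟩ := (isCompact_Icc.image_of_continuousOn hcb).bddAbove
  have hB' : ∀ y ∈ Icc (-X) X, ∑ l, ‖M y i l‖ ≤ B := fun y hy => hB ⟨y, hy, rfl⟩
  have hB0 : 0 ≤ B := (Finset.sum_nonneg fun l _ => norm_nonneg _).trans (hB' x hx)
  have hRc : ∀ k, Continuous fun y => DV k y - Ft y * V k y := fun k =>
    (hDV k).sub (hFt.matrix_mul (hVc k))
  have hest : ∀ k, ‖(M x * V k x - M x₀ * V k x₀) i j‖ ≤
      B * ∫ y in (-X)..X, √(hs2 (DV k y - Ft y * V k y)) := by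
    intro k
    have hc : Continuous fun y => (M y * (DV k y - Ft y * V k y)) i j :=
      (hMc.matrix_mul (hRc k)).matrix_elem i j
    have h1 : ∫ y in x₀..x, (M y * (DV k y - Ft y * V k y)) i j =
        (M x * V k x) i j - (M x₀ * V k x₀) i j :=
      intervalIntegral.integral_eq_sub_of_hasDerivAt
        (fun y _ => deriv_MV hM (hV k) y i j) (hc.intervalIntegrable _ _)
    rw [Matrix.sub_apply, ← h1]
    refine (intervalIntegral.norm_integral_le_integral_norm_uIoc).trans ?_
    rw [intervalIntegral.integral_of_le hXX, ← integral_const_mul]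
    have hsub : uIoc x₀ x ⊆ Ioc (-X) X := by
      rw [uIoc]
      exact Ioc_subset_Ioc (le_min hx₀.1 hx.1) (max_le hx₀.2 hx.2)
    have hc2 : Continuous fun y => B * √(hs2 (DV k y - Ft y * V k y)) :=
      continuous_const.mul (Real.continuous_sqrt.comp (continuous_hs2.comp (hRc k)))
    have hi2 : IntegrableOn (fun y => B * √(hs2 (DV k y - Ft y * V k y))) (Ioc (-X) X) :=
      (hc2.integrableOn_Icc).mono_set Ioc_subset_Icc_self
    refine le_trans ?_ (setIntegral_mono_set hi2 ?_ (LE.le.eventuallyLE hsub))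
    · refine setIntegral_mono_on ?_ (hi2.mono_set hsub) measurableSet_uIoc fun y hy => ?_
      · exact ((hc.norm.integrableOn_Icc).mono_set Ioc_subset_Icc_self).mono_set hsub
      · have hy' := Ioc_subset_Icc_self (hsub hy)
        rw [Matrix.mul_apply]
        refine (norm_sum_le _ _).trans ?_
        have h2 : ∀ l, ‖M y i l * (DV k y - Ft y * V k y) l j‖ ≤
            ‖M y i l‖ * √(hs2 (DV k y - Ft y * V k y)) := fun l => by
          rw [norm_mul]
          exact mul_le_mul_of_nonneg_left (entry_le _ l j) (norm_nonneg _)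
        refine (Finset.sum_le_sum fun l _ => h2 l).trans ?_
        rw [← Finset.sum_mul]
        exact mul_le_mul_of_nonneg_right (hB' y hy') (Real.sqrt_nonneg _)
    · exact Eventually.of_forall fun y => mul_nonneg hB0 (Real.sqrt_nonneg _)
  refine squeeze_zero_norm hest ?_
  have := (hint X hX0).const_mul B
  rwa [mul_zero] at this

theorem bdd_subseq {a b : ℕ} (V : ℕ → Matrix (Fin a) (Fin b) ℂ) {B : ℝ} (hB : 0 ≤ B)
    (h : ∀ᶠ k in atTop, ∀ i j, ‖V k i j‖ ≤ B) :
    ∃ (V₀ : Matrix (Fin a) (Fin b) ℂ) (σ : ℕ → ℕ), StrictMono σ ∧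
      Tendsto (fun k => V (σ k)) atTop (𝓝 V₀) := by
  have hbd : ∀ᶠ k in atTop, (show Fin a → Fin b → ℂ from V k) ∈
      Metric.closedBall (0 : Fin a → Fin b → ℂ) B := by
    filter_upwards [h] with k hk
    rw [mem_closedBall_zero_iff]
    exact (pi_norm_le_iff_of_nonneg hB).2 fun i => (pi_norm_le_iff_of_nonneg hB).2 fun j => hk i j
  obtain ⟨V₀, -, σ, hσ, hV₀⟩ := tendsto_subseq_of_frequently_bounded
    (X := Fin a → Fin b → ℂ) (x := fun k => V k) Metric.isBounded_closedBall hbd.frequently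
  exact ⟨V₀, σ, hσ, hV₀⟩

end H8_aux

open H8_aux

theorem U_limit {ν : ℝ} (h0 : 0 < ν) (h1 : ν < 1) {m : ℕ}
    {W : ℝ → Matrix (Fin m) (Fin m) ℂ} (hWp : ∀ x, (W x).PosSemidef)
    {G : ℝ → ℝ} {Λ E₀ : ℝ} {D : ℕ → RData ν m}
    (hG : GoodSeq ν m W G Λ E₀ D) {K : ℕ} {ι : (k : ℕ) → Fin K → Fin (D k).N} {α β : ℝ}
    {tt : Fin K → ℝ} (hC : Corner D K ι α β tt)
    (hrest : ∀ s : ℝ, 0 < s → ∀ᶠ k in atTop, ∀ j, j ∉ Set.range (ι k) → (D k).t j ≤ s)
    {Ft : ℝ → Matrix (Fin K) (Fin K) ℂ} (hL : CornerLimit D K ι tt Ft) :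
    ∃ Ut : ℝ → Matrix (Fin K) (Fin m) ℂ,
      (∀ x i j, HasDerivAt (fun y => Ut y i j) ((Ft x * Ut x) i j) x) ∧
      (∀ᵐ x : ℝ, W x = potm (lamc ν) ν⁻¹ (Ut x)) ∧
      (∀ᵐ x : ℝ, pot (lamc ν) ν⁻¹ (Ut x) =
        (((1 + ν) / ν : ℝ) : ℂ) • (dg tt - Ft x * Ft x)) := by
  have hl := lamc_pos h0
  have hr : 1 < ν⁻¹ := (one_lt_inv₀ h0).2 h1
  have hFtc : Continuous Ft := Ft_cont hL.ode
  have htt : ∀ i, 0 < tt i := fun i =>
    hC.pos.trans_le (ge_of_tendsto' (hC.lim i) fun k => hC.lower k i)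
  obtain ⟨u, τ, f, hu, hu', -, -, hFu, hf⟩ := explicit_flow h0 tt htt Ft hL.ode hL.comm hL.btw
  have hfc : ∀ i, Continuous (f i) := by
    have htanh : Continuous Real.tanh := continuous_iff_continuousAt.2 fun y =>
      (H6_aux.hasDerivAt_tanh y).continuousAt
    intro i
    rcases hf i with ⟨c, hc⟩ | hc | hc
    · rw [funext hc]
      exact continuous_const.mul (htanh.comp (continuous_const.mul
        (continuous_id.sub continuous_const)))
    · rw [funext hc]; exact continuous_const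
    · rw [funext hc]; exact continuous_const
  obtain ⟨M, N, hM, hN, hMN, hNM⟩ := fund hu hu' hfc hFu
  set V : ℕ → ℝ → Matrix (Fin K) (Fin m) ℂ := fun k x => ((D k).U x).submatrix (ι k) id with hV
  have hconst := flow_const (V := V) (DV := fun k x => ((D k).DU x).submatrix (ι k) id) hM hFtc
    (fun k x i j => (D k).U_deriv x (ι k i) j)
    (fun k => (D k).DU_cont.matrix_submatrix (ι k) id)
    (fun X hX => L1 h0 h1 hG hC hL hX)
  have hae := ae_limits h0 h1 hWp hG hC hrest
  -- the rows at a good point are bounded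
  obtain ⟨x₀, R₀, hR₀, -, hUU, -⟩ := hae.exists
  have hbd : ∀ᶠ k in atTop, ∀ i j, ‖V k x₀ i j‖ ≤ √(rtr R₀ + 1) := by
    have h2 := (continuous_rtr.tendsto R₀).comp hUU
    filter_upwards [h2.eventually (gt_mem_nhds (lt_add_one _))] with k hk
    intro i j
    refine (H8_aux.entry_le (V k x₀) i j).trans (Real.sqrt_le_sqrt ?_)
    have h3 := rtr_nonneg (rows_le (hC.inj k) ((D k).U x₀))
    rw [rtr_sub] at h3
    rw [hs2_eq_rtr]
    simp only [Function.comp_apply] at hk
    linarith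
  obtain ⟨V₀, σ, hσ, hV₀'⟩ := bdd_subseq (fun k => V k x₀) (Real.sqrt_nonneg _) hbd
  -- the limit
  have hlim : ∀ x, Tendsto (fun k => V (σ k) x) atTop
      (𝓝 (N x * (M x₀ * V₀))) := by
    intro x
    have h2 := (hconst x₀ x).comp hσ.tendsto_atTop
    have h3 : Tendsto (fun k => M x₀ * V (σ k) x₀) atTop
        (𝓝 (M x₀ * V₀)) := by
      have hc : Continuous fun A : Matrix (Fin K) (Fin m) ℂ => M x₀ * A :=
        continuous_const.matrix_mul continuous_id
      exact (hc.tendsto _).comp hV₀'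
    have h4 : Tendsto (fun k => M x * V (σ k) x) atTop
        (𝓝 (M x₀ * V₀)) := by
      have h5 := h2.add h3
      rw [zero_add] at h5
      refine h5.congr fun k => ?_
      simp only [Function.comp_apply]
      abel
    have hc : Continuous fun A : Matrix (Fin K) (Fin m) ℂ => N x * A :=
      continuous_const.matrix_mul continuous_id
    refine ((hc.tendsto _).comp h4).congr fun k => ?_
    simp only [Function.comp_apply]
    rw [← Matrix.mul_assoc, hNM, Matrix.one_mul]
  refine ⟨fun x => N x * (M x₀ * V₀), ?_, ?_, ?_⟩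
  · intro x i j
    have e1 : M2_aux.HD N (Ft x * N x) univ x := fun i j => (hN x i j).hasDerivWithinAt
    have e2 := hasDerivWithinAt_univ.1
      (e1.mul (M2_aux.HD.const (A := M x₀ * V₀)) i j)
    rw [Matrix.mul_zero, add_zero, Matrix.mul_assoc] at e2
    exact e2
  · filter_upwards [hae] with x ⟨R, hR, hW, hUUx, hrho⟩
    have e1 : Tendsto (fun k => (V k x)ᴴ * V k x) atTop (𝓝 R) := by
      have h2 := hUUx.sub hrho
      rw [sub_zero] at h2
      refine h2.congr fun k => ?_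
      simp only [hV]
      abel
    have e2 := e1.comp hσ.tendsto_atTop
    have e3 := (continuous_star_mul.tendsto _).comp (hlim x)
    have e4 := tendsto_nhds_unique e2 e3
    unfold potm
    rw [← hW, e4]
  · filter_upwards [hae, hL.P_lim] with x ⟨R, hR, hW, hUUx, hrho⟩ hP
    have e1 : Tendsto (fun k => (V k x)ᴴ * V k x) atTop (𝓝 R) := by
      have h2 := hUUx.sub hrho
      rw [sub_zero] at h2
      refine h2.congr fun k => ?_
      simp only [hV]
      abel
    have e2 := e1.comp hσ.tendsto_atTop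
    have e3 := (continuous_star_mul.tendsto _).comp (hlim x)
    have e4 := tendsto_nhds_unique e2 e3
    have hcw : ContinuousWithinAt (fun A : Matrix (Fin m) (Fin m) ℂ => mpow A (ν⁻¹ - 1))
        {A | A.PosSemidef} R := continuousOn_mpow (by linarith) _ hR
    have e5 : Tendsto (fun k => mpow (((D (σ k)).U x)ᴴ * (D (σ k)).U x) (ν⁻¹ - 1)) atTop
        (𝓝 (mpow R (ν⁻¹ - 1))) :=
      hcw.tendsto.comp (tendsto_nhdsWithin_iff.2 ⟨hUUx.comp hσ.tendsto_atTop,
        Eventually.of_forall fun k => MT_aux.star_mul_psd _⟩)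
    have hc : Continuous fun p : Matrix (Fin K) (Fin m) ℂ × Matrix (Fin m) (Fin m) ℂ =>
        ((lamc ν : ℝ) : ℂ) • (p.1 * p.2 * p.1ᴴ) := by
      have hc1 : Continuous fun p : Matrix (Fin K) (Fin m) ℂ × Matrix (Fin m) (Fin m) ℂ =>
          p.1 * p.2 * p.1ᴴ :=
        (continuous_fst.matrix_mul continuous_snd).matrix_mul
          continuous_fst.matrix_conjTranspose
      exact hc1.const_smul (((lamc ν : ℝ) : ℂ))
    have e6 := (hc.tendsto (N x * (M x₀ * V₀),
      mpow R (ν⁻¹ - 1))).comp ((hlim x).prodMk_nhds e5)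
    have e7 := hP.comp hσ.tendsto_atTop
    have e8 : pot (lamc ν) ν⁻¹ (N x * (M x₀ * V₀)) =
        ((lamc ν : ℝ) : ℂ) • (N x * (M x₀ * V₀) *
          mpow R (ν⁻¹ - 1) * (N x * (M x₀ * V₀))ᴴ) := by
      unfold pot
      rw [e4]
    rw [e8]
    refine tendsto_nhds_unique e6 (e7.congr fun k => ?_)
    simp only [Function.comp_apply]
    unfold RData.P
    rw [pot_corner]

end Crest.Agent.R332
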