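import Crest.Agent.R332.H1
import Crest.Agent.R332.H7
import Crest.Agent.R332.H8
import Crest.Agent.R332.H9
import Crest.Agent.R332.G2

/-!
# R332: S0516, direction `⟹` (assembly)
-/

set_option autoImplicit false
open MeasureTheory Set Matrix Filter Topology
open scoped ComplexOrder
open Crest.MathPhysics.LiebThirring

namespace Crest.Agent.R332

theorem soliton_of_extremal {ν : ℝ} (h0 : 0 < ν) (h1 : ν < 1) {m : ℕ}
    (W : ℝ → Matrix (Fin m) (Fin m) ℂ) (hW : ∀ i j, Measurable fun x => W x i j)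
    (hWp : ∀ x, (W x).PosSemidef) (hWi : Integrable fun x => tracePow (W x) (1 + ν))
    (hext : ∀ ε : ℝ, 0 < ε → ∃ (n : ℕ) (φ : Fin n → ℝ → Vec m), IsTrialFamily φ ∧
        sharpConst (ν + 1 / 2) * (∫ x, tracePow (W x) (1 + ν)) - ε <
          negMoment (energyMatrix W φ) (ν + 1 / 2)) :
    ∃ (U : Matrix.unitaryGroup (Fin m) ℂ) (a c : Fin m → ℝ), (∀ i, 0 ≤ a i) ∧
      ∀ᵐ x : ℝ, W x = (U : Matrix (Fin m) (Fin m) ℂ) *
        Matrix.diagonal (fun i => ((soliton ν⁻¹ (a i) (c i) x : ℝ) : ℂ)) *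
          star (U : Matrix (Fin m) (Fin m) ℂ) := by
  obtain ⟨D, G, Λ, E₀, hΛ, hG⟩ := exists_goodSeq h0 h1 W hW hWp hWi hext
  obtain ⟨σ, K, ι, α, β, tt, hσ, hK, hC, hrest⟩ := corner_II h0 hG (count_le h0 h1 hΛ hG)
  have hG1 := hG.comp hσ
  obtain ⟨σ', Ft, hσ', hL⟩ := corner_limit h0 h1 hG1 hC
  have hG2 := hG1.comp hσ'
  have hC2 := hC.comp hσ'
  obtain ⟨Ut, hUd, hUW, hUP⟩ := U_limit h0 h1 hWp hG2 hC2
    (fun s hs => hσ'.tendsto_atTop.eventually (hrest s hs)) hL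
  have htt : ∀ i, 0 < tt i := fun i =>
    lt_of_lt_of_le hC2.pos (ge_of_tendsto' (hC2.lim i) (fun k => hC2.lower k i))
  obtain ⟨u, τ, f, hu, hu', htτ, hτ, hF, hf⟩ := explicit_flow h0 tt htt Ft hL.ode hL.comm hL.btw
  exact identify h0 h1 W tt htt Ft u τ f hu hu' htτ hτ hF hf Ut hUd hUW hUP

end Crest.Agent.R332
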