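import Crest.Agent.R332.HDefs

/-!
# R332 piece H1: existence of a good sequence

Let `E = C ∫ tr W^p`. For each `k` take a trial family with `negMoment > E - 4^{-k}` and apply
`master` with `ε' = 4^{-k}`, `Lmin = k`. With `M = C (1+ν)^(1+ν)/ν^ν`, `rdata_hj` gives
`C∫tr P^p - Σ t^γ ≥ -M 4^{-k}`, so
`γ ∫ hs2(DU-FU) + C ∫ breg + [C∫tr P^p - Σ t^γ + M 4^{-k}] ≤ (1+M) 4^{-k}`, all terms `≥ 0`.
* `∫ breg_k ≤ C' 4^{-k}` summable, so `Σ_k breg_k(x)` is integrable and a.e. finite: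
  `breg_k(x) → 0` a.e. By `breg_lower`: `tr potm^p ≤ (2/ν)(breg_k + 2^ν tr W^p) ≤ G(x)`,
  `G = (2/ν)(Σ_k breg_k + 2^ν tr W^p)` integrable (`p - 1 = ν`; `tr P^p = tr potm^p`).
  `potm_k(x) → W(x)`: the sequence is bounded (in the finite dimensional space of `m × m`
  matrices), every cluster point `V ≥ 0` has `breg p (W x) V = 0` (continuity), so `V = W x`
  (`breg_eq_zero`).
* `C∫_{-L}^{L} tr P^p ≤ C ∫ G`, so `Σ t^γ ≤ C∫tr P^p + M 4^{-k} ≤ E₀` and `t_i ≤ Λ := E₀^(1/γ)+1`.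
* `hj_norm` with this `Λ` (`e = 0`, `Wa = P`) gives
  `c ∫ (hs2 comm + hs2 dft/(1 + (ν/(1+ν)) tr P)) ≤ (1+2M) 4^{-k}`: summable, hence a.e.
  convergence to 0 of the integrands (on `[-k,k] ⊂ [-L_k, L_k]`; extend by 0 outside), and
  `hs2 dft → 0` since `tr P ≤ m + tr P^p ≤ m + G(x)` is bounded in `k`.
-/

set_option autoImplicit false
open MeasureTheory Set Matrix Filter Topology
open scoped ComplexOrder
open Crest.MathPhysics.LiebThirring

namespace Crest.Agent.R332


namespace H1_aux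

/-- nonnegative integrable functions with summable integrals -/
theorem ae_summable {f : ℕ → ℝ → ℝ} (hf0 : ∀ k x, 0 ≤ f k x) (hfi : ∀ k, Integrable (f k))
    (hs : Summable fun k => ∫ x, f k x) :
    (∀ᵐ x : ℝ, Summable fun k => f k x) ∧ Integrable (fun x => ∑' k, f k x) := by
  have hm : ∀ k, AEMeasurable (fun x => ENNReal.ofReal (f k x)) volume := fun k =>
    (hfi k).1.aemeasurable.ennreal_ofReal
  have h1 : ∫⁻ x, ∑' k, ENNReal.ofReal (f k x) ≠ ⊤ := by
    rw [lintegral_tsum hm]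
    have h2 : ∀ k, ∫⁻ x, ENNReal.ofReal (f k x) = ENNReal.ofReal (∫ x, f k x) := fun k =>
      (ofReal_integral_eq_lintegral_ofReal (hfi k) (Eventually.of_forall (hf0 k))).symm
    simp only [h2]
    rw [← ENNReal.ofReal_tsum_of_nonneg (fun k => integral_nonneg (hf0 k)) hs]
    exact ENNReal.ofReal_ne_top
  have hmt : AEMeasurable (fun x => ∑' k, ENNReal.ofReal (f k x)) volume :=
    AEMeasurable.tsum hm
  constructor
  · filter_upwards [ae_lt_top' hmt h1] with x hx
    have h3 := ENNReal.summable_toReal hx.ne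
    refine h3.congr fun k => ?_
    rw [ENNReal.toReal_ofReal (hf0 k x)]
  · have h4 := integrable_toReal_of_lintegral_ne_top hmt h1
    refine h4.congr (Eventually.of_forall fun x => ?_)
    simp only
    rw [ENNReal.tsum_toReal_eq fun k => ENNReal.ofReal_ne_top]
    refine tsum_congr fun k => ?_
    rw [ENNReal.toReal_ofReal (hf0 k x)]

theorem rtr_le {m : ℕ} {A : Matrix (Fin m) (Fin m) ℂ} (hA : A.PosSemidef) {p : ℝ}
    (hp : 1 ≤ p) : rtr A ≤ m + tracePow A p := by
  obtain ⟨u, a, hu, hu', hA'⟩ := exists_diag hA.isHermitian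
  have ha := diag_nonneg hu hA' hA
  have htr : tracePow A p = ∑ k, (a k) ^ p := by
    rw [hA', tracePow_diag hu hu']
  have h1 : rtr A = ∑ k, a k := by
    rw [hA', rtr_conj hu, rtr_dg]
  rw [htr, h1]
  calc ∑ k, a k ≤ ∑ k, (1 + (a k) ^ p) := by
        refine Finset.sum_le_sum fun k _ => ?_
        rcases le_total (a k) 1 with h | h
        · have := Real.rpow_nonneg (ha k) p
          linarith
        · have : a k ≤ (a k) ^ p := by
            calc a k = (a k) ^ (1:ℝ) := (Real.rpow_one _).symm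
              _ ≤ (a k) ^ p := Real.rpow_le_rpow_of_exponent_le h hp
          linarith
    _ = m + ∑ k, (a k) ^ p := by
        rw [Finset.sum_add_distrib]
        simp

/-- continuity of the Bregman divergence in the second variable -/
theorem continuousOn_breg {m : ℕ} {p : ℝ} (hp : 1 < p) (A : Matrix (Fin m) (Fin m) ℂ) :
    ContinuousOn (fun V : Matrix (Fin m) (Fin m) ℂ => breg p A V) {V | V.PosSemidef} := by
  unfold breg
  refine (continuousOn_const.add (continuousOn_const.mul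
    (continuousOn_tracePow (by linarith)))).sub (continuousOn_const.mul ?_)
  have h1 : Continuous fun V : Matrix (Fin m) (Fin m) ℂ => rtr (A * V) :=
    continuous_rtr.comp (continuous_const.matrix_mul continuous_id)
  exact h1.comp_continuousOn (continuousOn_mpow (by linarith))

/-- if `breg p A (V k) → 0` and `tr (V k)^p` is bounded, then `V k → A` -/
theorem tendsto_of_breg {m : ℕ} {p : ℝ} (hp : 1 < p) {A : Matrix (Fin m) (Fin m) ℂ}
    (hA : A.PosSemidef) {V : ℕ → Matrix (Fin m) (Fin m) ℂ} (hV : ∀ k, (V k).PosSemidef)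
    {R : ℝ} (hR : ∀ k, tracePow (V k) p ≤ R)
    (hb : Tendsto (fun k => breg p A (V k)) atTop (𝓝 0)) :
    Tendsto V atTop (𝓝 A) := by
  set B : Set (Matrix (Fin m) (Fin m) ℂ) :=
    Set.pi univ fun _ : Fin m => Set.pi univ fun _ : Fin m => Metric.closedBall (0:ℂ) (m + R)
    with hB
  have hBc : IsCompact B :=
    isCompact_univ_pi fun _ => isCompact_univ_pi fun _ => isCompact_closedBall _ _
  have hKc : IsCompact (B ∩ {V | V.PosSemidef}) := hBc.inter_right isClosed_posSemidef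
  refine hKc.tendsto_nhds_of_unique_mapClusterPt (Eventually.of_forall fun k => ?_) ?_
  · refine ⟨?_, hV k⟩
    rw [hB]
    intro i _ j _
    rw [mem_closedBall_zero_iff]
    exact (M1_aux.entry_le (hV k) i j hp.le).trans (by linarith [hR k])
  · rintro X ⟨-, hX⟩ hcl
    rw [mapClusterPt_iff_ultrafilter] at hcl
    obtain ⟨U, hU, hUX⟩ := hcl
    have h1 : Tendsto V U (𝓝[{V | V.PosSemidef}] X) :=
      tendsto_nhdsWithin_iff.2 ⟨hUX, Eventually.of_forall hV⟩
    have h2 : Tendsto (fun k => breg p A (V k)) U (𝓝 (breg p A X)) :=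
      ((continuousOn_breg hp A) X hX).tendsto.comp h1
    have h3 : Tendsto (fun k => breg p A (V k)) U (𝓝 0) := hb.mono_left hU
    have h4 := tendsto_nhds_unique h2 h3
    exact (breg_eq_zero hp hA hX h4).symm

theorem rdata_M_pos {ν : ℝ} (h0 : 0 < ν) :
    0 < sharpConst (ν + 1 / 2) * ((1 + ν) ^ (1 + ν) / ν ^ ν) := by
  have := sharpConst_pos h0
  positivity

theorem comm_eq {ν : ℝ} {m : ℕ} (D : RData ν m) (x : ℝ) :
    dg D.t * D.F x - D.F x * dg D.t = D.comm x := rfl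

end H1_aux

open H1_aux

/-- step 1: the sequence with summable deficits -/
theorem exists_seq {ν : ℝ} (h0 : 0 < ν) (h1 : ν < 1) {m : ℕ}
    (W : ℝ → Matrix (Fin m) (Fin m) ℂ) (hW : ∀ i j, Measurable fun x => W x i j)
    (hWp : ∀ x, (W x).PosSemidef) (hWi : Integrable fun x => tracePow (W x) (1 + ν))
    (hext : ∀ ε : ℝ, 0 < ε → ∃ (n : ℕ) (φ : Fin n → ℝ → Vec m), IsTrialFamily φ ∧
        sharpConst (ν + 1 / 2) * (∫ x, tracePow (W x) (1 + ν)) - ε <
          negMoment (energyMatrix W φ) (ν + 1 / 2)) :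
    ∃ (D : ℕ → RData ν m) (M : ℝ), 0 < M ∧ ∀ k : ℕ, (k : ℝ) ≤ (D k).L ∧
      (D k).err ≤ (1 / 4) ^ k ∧
      Integrable (fun x => breg (1 + ν) (W x) (potm (lamc ν) ν⁻¹ ((D k).U x))) ∧
      (∫ x, breg (1 + ν) (W x) (potm (lamc ν) ν⁻¹ ((D k).U x))) ≤ M * (1 / 4) ^ k ∧
      (∫ x in (-(D k).L)..(D k).L, hs2 ((D k).DU x - (D k).F x * (D k).U x)) ≤
        M * (1 / 4) ^ k ∧
      sharpConst (ν + 1 / 2) * (∫ x in (-(D k).L)..(D k).L, tracePow ((D k).P x) (1 + ν)) -
        ∑ j, ((D k).t j) ^ (ν + 1 / 2) ≤ M * (1 / 4) ^ k := by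
  have hC := sharpConst_pos h0
  set C := sharpConst (ν + 1 / 2) with hCdef
  set M₀ : ℝ := C * ((1 + ν) ^ (1 + ν) / ν ^ ν) with hM₀
  have hM₀p : 0 < M₀ := rdata_M_pos h0
  have hγ : 0 < ν + 1 / 2 := by linarith
  have hq : ∀ k : ℕ, (0:ℝ) < (1 / 4) ^ k := fun k => by positivity
  have hex : ∀ k : ℕ, ∃ D : RData ν m, (k : ℝ) ≤ D.L ∧ D.err ≤ (1 / 4) ^ k ∧
      Integrable (fun x => breg (1 + ν) (W x) (potm (lamc ν) ν⁻¹ (D.U x))) ∧
      (ν + 1 / 2) * (∫ x in (-D.L)..D.L, hs2 (D.DU x - D.F x * D.U x)) +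
        C * (∫ x, breg (1 + ν) (W x) (potm (lamc ν) ν⁻¹ (D.U x))) +
        (C * (∫ x in (-D.L)..D.L, tracePow (D.P x) (1 + ν)) -
          ∑ j, (D.t j) ^ (ν + 1 / 2)) ≤ (1 / 4) ^ k := by
    intro k
    obtain ⟨n, φ, hφ, hneg⟩ := hext _ (hq k)
    obtain ⟨D, hL, herr, hint, hm⟩ := master h0 h1 W hW hWp hWi φ hφ (hq k) (k : ℝ)
    refine ⟨D, hL, herr, hint, ?_⟩
    have : ∀ x, D.P x = pot (lamc ν) ν⁻¹ (D.U x) := fun _ => rfl
    simp only [this]
    linarith
  choose D hL herr hint hm using hex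
  refine ⟨D, 1 + (1 + M₀) / C + (1 + M₀) / (ν + 1 / 2), by positivity, fun k => ?_⟩
  have hLL : -(D k).L ≤ (D k).L := by linarith [(D k).L_pos]
  have e1 := rdata_hj h0 h1 (D k)
  have e1' : (∑ j, ((D k).t j) ^ (ν + 1 / 2)) ≤
      C * (∫ x in (-(D k).L)..(D k).L, tracePow ((D k).P x) (1 + ν)) + M₀ * (D k).err := e1
  have e2 : 0 ≤ ∫ x in (-(D k).L)..(D k).L, hs2 ((D k).DU x - (D k).F x * (D k).U x) :=
    intervalIntegral.integral_nonneg hLL fun x _ => hs2_nonneg _
  have e3 : 0 ≤ ∫ x, breg (1 + ν) (W x) (potm (lamc ν) ν⁻¹ ((D k).U x)) :=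
    integral_nonneg fun x => breg_nonneg (by linarith) (hWp x)
      (potm_posSemidef (lamc_pos h0).le _)
  have e4 : M₀ * (D k).err ≤ M₀ * (1 / 4) ^ k := mul_le_mul_of_nonneg_left (herr k) hM₀p.le
  have e5 := hm k
  have e6 := mul_nonneg hC.le e3
  have e7 := mul_nonneg hγ.le e2
  have hqk := hq k
  have herrk := herr k
  generalize (∫ x in (-(D k).L)..(D k).L, hs2 ((D k).DU x - (D k).F x * (D k).U x)) = IA at *
  generalize (∫ x, breg (1 + ν) (W x) (potm (lamc ν) ν⁻¹ ((D k).U x))) = IB at *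
  generalize (∫ x in (-(D k).L)..(D k).L, tracePow ((D k).P x) (1 + ν)) = IP at *
  generalize (∑ j, ((D k).t j) ^ (ν + 1 / 2)) = S at *
  generalize ((1:ℝ) / 4) ^ k = q at *
  have f1 : 0 < (1 + M₀) / C := by positivity
  have f2 : 0 < (1 + M₀) / (ν + 1 / 2) := by positivity
  refine ⟨hL k, herrk, hint k, ?_, ?_, ?_⟩
  · have h2 : C * IB ≤ (1 + M₀) * q := by linarith
    have h3 : IB ≤ (1 + M₀) / C * q := by
      rw [div_mul_eq_mul_div, le_div_iff₀ hC]
      linarith
    nlinarith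
  · have h2 : (ν + 1 / 2) * IA ≤ (1 + M₀) * q := by linarith
    have h3 : IA ≤ (1 + M₀) / (ν + 1 / 2) * q := by
      rw [div_mul_eq_mul_div, le_div_iff₀ hγ]
      linarith
    nlinarith
  · have h2 : C * IP - S ≤ q := by linarith
    nlinarith

set_option maxHeartbeats 4000000 in
/-- step 2: it is a good sequence -/
theorem exists_goodSeq {ν : ℝ} (h0 : 0 < ν) (h1 : ν < 1) {m : ℕ}
    (W : ℝ → Matrix (Fin m) (Fin m) ℂ) (hW : ∀ i j, Measurable fun x => W x i j)
    (hWp : ∀ x, (W x).PosSemidef) (hWi : Integrable fun x => tracePow (W x) (1 + ν))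
    (hext : ∀ ε : ℝ, 0 < ε → ∃ (n : ℕ) (φ : Fin n → ℝ → Vec m), IsTrialFamily φ ∧
        sharpConst (ν + 1 / 2) * (∫ x, tracePow (W x) (1 + ν)) - ε <
          negMoment (energyMatrix W φ) (ν + 1 / 2)) :
    ∃ (D : ℕ → RData ν m) (G : ℝ → ℝ) (Λ E₀ : ℝ), 0 < Λ ∧ GoodSeq ν m W G Λ E₀ D := by
  obtain ⟨D, M, hM, hD⟩ := exists_seq h0 h1 W hW hWp hWi hext
  have hp : 1 < 1 + ν := by linarith
  have hr : 1 < ν⁻¹ := (one_lt_inv₀ h0).2 h1
  have hC := sharpConst_pos h0
  have hM₀ := rdata_M_pos h0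
  set C := sharpConst (ν + 1 / 2) with hCdef
  set M₀ : ℝ := C * ((1 + ν) ^ (1 + ν) / ν ^ ν) with hM₀def
  have hγ : 0 < ν + 1 / 2 := by linarith
  have hlam := lamc_pos h0
  have hLL : ∀ k, -(D k).L ≤ (D k).L := fun k => by linarith [(D k).L_pos]
  -- the Bregman terms
  set b : ℕ → ℝ → ℝ := fun k x => breg (1 + ν) (W x) (potm (lamc ν) ν⁻¹ ((D k).U x)) with hbdef
  have hb0 : ∀ k x, 0 ≤ b k x := fun k x =>
    breg_nonneg hp.le (hWp x) (potm_posSemidef hlam.le _)
  have hbi : ∀ k, Integrable (b k) := fun k => (hD k).2.2.1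
  have hgeo : ∀ A : ℝ, Summable fun k : ℕ => A * (1 / 4 : ℝ) ^ k := fun A =>
    (summable_geometric_of_lt_one (by norm_num) (by norm_num)).mul_left A
  have hbs : Summable fun k => ∫ x, b k x :=
    Summable.of_nonneg_of_le (fun k => integral_nonneg (hb0 k)) (fun k => (hD k).2.2.2.1) (hgeo M)
  obtain ⟨hbae, hbint⟩ := ae_summable hb0 hbi hbs
  set G : ℝ → ℝ := fun x => 2 / ν * ((∑' k, b k x) + 2 ^ ν * tracePow (W x) (1 + ν)) with hGdef
  have hGint : Integrable G := (hbint.add (hWi.const_mul _)).const_mul _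
  have hG0 : ∀ x, 0 ≤ G x := fun x => by
    have e1 : 0 ≤ ∑' k, b k x := tsum_nonneg fun k => hb0 k x
    have e2 := tracePow_nonneg (hWp x) (1 + ν)
    simp only [hGdef]
    positivity
  have hPp : ∀ k x, ((D k).P x).PosSemidef := fun k x => pot_posSemidef hlam.le _
  have htpm : ∀ k x, tracePow ((D k).P x) (1 + ν) =
      tracePow (potm (lamc ν) ν⁻¹ ((D k).U x)) (1 + ν) := fun k x => by
    have : (D k).P x = pot (lamc ν) ν⁻¹ ((D k).U x) := rfl
    rw [this, tracePow_pot hlam hr (by linarith), tracePow_potm hlam hr (by linarith)]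
  have hrtr : ∀ k x, rtr ((D k).P x) = rtr (potm (lamc ν) ν⁻¹ ((D k).U x)) := fun k x => by
    have e1 := tracePow_pot hlam hr one_pos ((D k).U x)
    have e2 := tracePow_potm hlam hr one_pos ((D k).U x)
    rw [← e2, tracePow_eq, tracePow_eq, mpow_one (potm_posSemidef hlam.le _),
      mpow_one (pot_posSemidef hlam.le _)] at e1
    exact e1
  have hdom : ∀ᵐ x : ℝ, ∀ k, tracePow ((D k).P x) (1 + ν) ≤ G x := by
    filter_upwards [hbae] with x hx k
    rw [htpm]
    have h2 := breg_lower hp (hWp x) (potm_posSemidef hlam.le ((D k).U x) (r := ν⁻¹))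
    have h3 : b k x ≤ ∑' k, b k x := hx.le_tsum k (fun j _ => hb0 j x)
    have e : (1 + ν) - 1 = ν := by ring
    rw [e] at h2
    have h4 : breg (1 + ν) (W x) (potm (lamc ν) ν⁻¹ ((D k).U x)) = b k x := rfl
    rw [h4] at h2
    simp only [hGdef]
    rw [div_mul_eq_mul_div, le_div_iff₀ h0]
    linarith
  have hlim : ∀ᵐ x : ℝ, Tendsto (fun k => potm (lamc ν) ν⁻¹ ((D k).U x)) atTop (𝓝 (W x)) := by
    filter_upwards [hbae, hdom] with x hx hdx
    exact tendsto_of_breg hp (hWp x) (fun k => potm_posSemidef hlam.le _) (R := G x)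
      (fun k => by rw [← htpm]; exact hdx k) hx.tendsto_atTop_zero
  have hPc : ∀ k, Continuous fun x => (D k).P x := fun k =>
    (continuous_pot hr).comp (D k).U_cont
  have htc : ∀ k, Continuous fun x => tracePow ((D k).P x) (1 + ν) := fun k =>
    (continuousOn_tracePow (by linarith)).comp_continuous (hPc k) (hPp k)
  have hIP : ∀ k, (∫ x in (-(D k).L)..(D k).L, tracePow ((D k).P x) (1 + ν)) ≤ ∫ x, G x := by
    intro k
    rw [intervalIntegral.integral_of_le (hLL k)]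
    calc _ ≤ ∫ x in Ioc (-(D k).L) (D k).L, G x :=
          setIntegral_mono_ae ((htc k).integrableOn_Ioc) hGint.integrableOn
            (hdom.mono fun x hx => hx k)
      _ ≤ ∫ x, G x := setIntegral_le_integral hGint (Eventually.of_forall hG0)
  have hIG : 0 ≤ ∫ x, G x := integral_nonneg hG0
  set E₀ : ℝ := C * (∫ x, G x) + M₀ with hE₀
  have hE₀p : 0 < E₀ := by positivity
  have hhj : ∀ k, (∑ j, ((D k).t j) ^ (ν + 1 / 2)) ≤
      C * (∫ x in (-(D k).L)..(D k).L, tracePow ((D k).P x) (1 + ν)) + M₀ * (D k).err := fun k =>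
    rdata_hj h0 h1 (D k)
  have hq1 : ∀ k : ℕ, ((1:ℝ) / 4) ^ k ≤ 1 := fun k => pow_le_one₀ (by norm_num) (by norm_num)
  have hsum : ∀ k, ∑ i, ((D k).t i) ^ (ν + 1 / 2) ≤ E₀ := by
    intro k
    have e1 := hhj k
    have e2 := mul_le_mul_of_nonneg_left (hIP k) hC.le
    have e3 : M₀ * (D k).err ≤ M₀ * 1 :=
      mul_le_mul_of_nonneg_left ((hD k).2.1.trans (hq1 k)) hM₀.le
    rw [hE₀]
    linarith
  set Λ : ℝ := E₀ ^ (1 / (ν + 1 / 2)) + 1 with hΛ
  have hΛp : 0 < Λ := by positivity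
  have htle : ∀ k i, (D k).t i ≤ Λ := by
    intro k i
    have ht := (D k).t_pos i
    have e1 : ((D k).t i) ^ (ν + 1 / 2) ≤ E₀ :=
      (Finset.single_le_sum (f := fun i => ((D k).t i) ^ (ν + 1 / 2))
        (fun j _ => Real.rpow_nonneg ((D k).t_pos j).le _) (Finset.mem_univ i)).trans (hsum k)
    have e2 : (D k).t i = (((D k).t i) ^ (ν + 1 / 2)) ^ (1 / (ν + 1 / 2)) := by
      rw [← Real.rpow_mul ht.le, mul_one_div_cancel hγ.ne', Real.rpow_one]
    have e3 : (((D k).t i) ^ (ν + 1 / 2)) ^ (1 / (ν + 1 / 2)) ≤ E₀ ^ (1 / (ν + 1 / 2)) :=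
      Real.rpow_le_rpow (Real.rpow_nonneg ht.le _) e1 (by positivity)
    rw [← e2] at e3
    linarith
  -- limits
  have hqlim : ∀ A : ℝ, Tendsto (fun k : ℕ => A * (1 / 4 : ℝ) ^ k) atTop (𝓝 0) := fun A => by
    have := (tendsto_pow_atTop_nhds_zero_of_lt_one (r := (1:ℝ) / 4) (by norm_num)
      (by norm_num)).const_mul A
    rwa [mul_zero] at this
  have herr : Tendsto (fun k => (D k).err) atTop (𝓝 0) := by
    refine tendsto_of_tendsto_of_tendsto_of_le_of_le (hqlim (-(M / M₀))) (hqlim 1) ?_ ?_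
    · intro k
      have e1 := hhj k
      have e2 := (hD k).2.2.2.2.2
      have e3 : -(M * (1 / 4) ^ k) ≤ M₀ * (D k).err := by linarith
      show -(M / M₀) * (1 / 4) ^ k ≤ (D k).err
      have e4 : -(M / M₀) * (1 / 4) ^ k = -(M * (1 / 4) ^ k) / M₀ := by ring
      rw [e4, div_le_iff₀ hM₀]
      linarith
    · intro k
      show (D k).err ≤ 1 * (1 / 4) ^ k
      rw [one_mul]
      exact (hD k).2.1
  have hdu : Tendsto (fun k => ∫ x in (-(D k).L)..(D k).L,
      hs2 ((D k).DU x - (D k).F x * (D k).U x)) atTop (𝓝 0) :=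
    squeeze_zero (fun k => intervalIntegral.integral_nonneg (hLL k) fun x _ => hs2_nonneg _)
      (fun k => (hD k).2.2.2.2.1) (hqlim M)
  obtain ⟨c, K, hc, hK, hhjn⟩ := hj_norm h0 h1 hΛp
  set κ : ℝ := ν / (1 + ν) with hκ
  have hκ0 : 0 ≤ κ := by positivity
  set q : ℕ → ℝ → ℝ := fun k x => hs2 ((D k).comm x) +
    hs2 ((D k).dft x) / (1 + κ * rtr ((D k).P x)) with hqdef
  have hrp : ∀ k x, 0 ≤ rtr ((D k).P x) := fun k x => rtr_nonneg (hPp k x)
  have hden : ∀ k x, 0 < 1 + κ * rtr ((D k).P x) := fun k x => by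
    have := mul_nonneg hκ0 (hrp k x)
    linarith
  have hq0 : ∀ k x, 0 ≤ q k x := fun k x =>
    add_nonneg (hs2_nonneg _) (div_nonneg (hs2_nonneg _) (hden k x).le)
  have hFc : ∀ k, ContinuousOn (D k).F (Icc (-(D k).L) (D k).L) := fun k =>
    continuousOn_pi.2 fun i => continuousOn_pi.2 fun j => fun x hx =>
      ((D k).F_deriv x hx i j).continuousWithinAt
  have hcommc : ∀ k, ContinuousOn (D k).comm (Icc (-(D k).L) (D k).L) := fun k =>
    (M2_aux.continuousOn_mul continuousOn_const (hFc k)).sub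
      (M2_aux.continuousOn_mul (hFc k) continuousOn_const)
  have hdftc : ∀ k, ContinuousOn (D k).dft (Icc (-(D k).L) (D k).L) := fun k => by
    have e1 : ContinuousOn (fun x => ((ν / (1 + ν) : ℝ) : ℂ) • (D k).P x)
        (Icc (-(D k).L) (D k).L) :=
      (hPc k).continuousOn.const_smul ((ν / (1 + ν) : ℝ) : ℂ)
    have e2 : ContinuousOn (fun x => dg (D k).t - (D k).F x * (D k).F x)
        (Icc (-(D k).L) (D k).L) :=
      continuousOn_const.sub (M2_aux.continuousOn_mul (hFc k) (hFc k))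
    exact e1.sub e2
  have hcc : ∀ k, ContinuousOn (fun x => hs2 ((D k).comm x)) (Icc (-(D k).L) (D k).L) := fun k =>
    continuous_hs2.comp_continuousOn (hcommc k)
  have hqc : ∀ k, ContinuousOn (q k) (Icc (-(D k).L) (D k).L) := fun k =>
    (hcc k).add ((continuous_hs2.comp_continuousOn (hdftc k)).div
      (continuousOn_const.add (continuousOn_const.mul
        (continuous_rtr.comp (hPc k)).continuousOn)) fun x _ => (hden k x).ne')
  have hqI : ∀ k, (∫ x in (-(D k).L)..(D k).L, q k x) ≤ (M + M₀) / c * (1 / 4) ^ k := by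
    intro k
    have key := hhjn (D k).t (-(D k).L) (D k).L (D k).η (D k).F (fun x => (D k).P x) (fun _ => 0)
      (fun i => ⟨(D k).t_pos i, htle k i⟩) (hLL k) (D k).η_pos.le (hPc k).continuousOn
      continuousOn_const (fun x _ => hPp k x) (fun _ _ => Matrix.PosSemidef.zero)
      (by
        have := (D k).F_deriv
        simp only [sub_zero]
        exact this) (D k).F_btw (D k).F_left (D k).F_right
    have hz : rtr (0 : Matrix (Fin (D k).N) (Fin (D k).N) ℂ) = 0 := by simp [rtr]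
    simp only [hz, intervalIntegral.integral_zero, mul_zero, add_zero] at key
    have key2 : (∑ j, ((D k).t j) ^ (ν + 1 / 2)) + c * (∫ x in (-(D k).L)..(D k).L, q k x) ≤
        C * (∫ x in (-(D k).L)..(D k).L, tracePow ((D k).P x) (1 + ν)) + M₀ * (D k).err := key
    have e2 := (hD k).2.2.2.2.2
    have e3 : M₀ * (D k).err ≤ M₀ * (1 / 4) ^ k := mul_le_mul_of_nonneg_left (hD k).2.1 hM₀.le
    rw [div_mul_eq_mul_div, le_div_iff₀ hc]
    linarith
  -- the extended functions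
  set g : ℕ → ℝ → ℝ := fun k => (Icc (-(D k).L) (D k).L).indicator (q k) with hgdef
  have hg0 : ∀ k x, 0 ≤ g k x := fun k x => Set.indicator_nonneg (fun y _ => hq0 k y) x
  have hgi : ∀ k, Integrable (g k) := fun k =>
    (integrable_indicator_iff measurableSet_Icc).2 (hqc k).integrableOn_Icc
  have hgint : ∀ k, ∫ x, g k x = ∫ x in (-(D k).L)..(D k).L, q k x := fun k => by
    rw [intervalIntegral.integral_of_le (hLL k), ← integral_Icc_eq_integral_Ioc]
    exact integral_indicator measurableSet_Icc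
  have hgs : Summable fun k => ∫ x, g k x :=
    Summable.of_nonneg_of_le (fun k => integral_nonneg (hg0 k))
      (fun k => by rw [hgint]; exact hqI k) (hgeo ((M + M₀) / c))
  obtain ⟨hgae, -⟩ := ae_summable hg0 hgi hgs
  have hev : ∀ x : ℝ, ∀ᶠ k in atTop, g k x = q k x := by
    intro x
    obtain ⟨n, hn⟩ := exists_nat_ge |x|
    filter_upwards [eventually_ge_atTop n] with k hk
    have e1 : |x| ≤ (D k).L := by
      have e2 : (n : ℝ) ≤ k := by exact_mod_cast hk
      exact hn.trans (e2.trans (hD k).1)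
    simp only [hgdef]
    rw [Set.indicator_of_mem]
    exact ⟨by linarith [neg_abs_le x], by linarith [le_abs_self x]⟩
  have hqae : ∀ᵐ x : ℝ, Tendsto (fun k => q k x) atTop (𝓝 0) := by
    filter_upwards [hgae] with x hx
    exact hx.tendsto_atTop_zero.congr' (hev x)
  have hcomm_int : Tendsto (fun k => ∫ x in (-(D k).L)..(D k).L, hs2 ((D k).comm x)) atTop
      (𝓝 0) := by
    refine squeeze_zero (fun k => intervalIntegral.integral_nonneg (hLL k) fun x _ =>
      hs2_nonneg _) (fun k => ?_) (hqlim ((M + M₀) / c))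
    refine le_trans ?_ (hqI k)
    refine intervalIntegral.integral_mono_on (hLL k)
      ((hcc k).intervalIntegrable_of_Icc (hLL k)) ((hqc k).intervalIntegrable_of_Icc (hLL k))
      fun x _ => ?_
    have := div_nonneg (hs2_nonneg ((D k).dft x)) (hden k x).le
    simp only [hqdef]
    linarith
  have hcomm_ae : ∀ᵐ x : ℝ, Tendsto (fun k => hs2 ((D k).comm x)) atTop (𝓝 0) := by
    filter_upwards [hqae] with x hx
    refine squeeze_zero (fun k => hs2_nonneg _) (fun k => ?_) hx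
    have := div_nonneg (hs2_nonneg ((D k).dft x)) (hden k x).le
    simp only [hqdef]
    linarith
  have hdft_ae : ∀ᵐ x : ℝ, Tendsto (fun k => hs2 ((D k).dft x)) atTop (𝓝 0) := by
    filter_upwards [hqae, hdom] with x hx hdx
    have hx2 := hx.mul_const (1 + κ * (m + G x))
    rw [zero_mul] at hx2
    refine squeeze_zero (fun k => hs2_nonneg _) (fun k => ?_) hx2
    have e1 : rtr ((D k).P x) ≤ m + G x := by
      rw [hrtr]
      refine (rtr_le (potm_posSemidef hlam.le _) hp.le).trans ?_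
      have := hdx k
      rw [htpm] at this
      linarith
    have e2 : hs2 ((D k).dft x) / (1 + κ * rtr ((D k).P x)) ≤ q k x := by
      have := hs2_nonneg ((D k).comm x)
      simp only [hqdef]
      linarith
    calc hs2 ((D k).dft x) = hs2 ((D k).dft x) / (1 + κ * rtr ((D k).P x)) *
          (1 + κ * rtr ((D k).P x)) := (div_mul_cancel₀ _ (hden k x).ne').symm
      _ ≤ q k x * (1 + κ * (m + G x)) := by
          refine mul_le_mul e2 ?_ (hden k x).le (hq0 k x)
          have := mul_le_mul_of_nonneg_left e1 hκ0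
          linarith
  exact ⟨D, G, Λ, E₀, hΛp, ⟨fun k => (hD k).1, htle, hsum, herr, hGint, hdom, hlim, hdu,
    hcomm_int, hcomm_ae, hdft_ae⟩⟩

end Crest.Agent.R332
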