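import Crest.Agent.R332.HDefs

/-!
# R332 piece H4: selection of corners (finite combinatorics + compactness)

`cnt s k = #{i : s ≤ t_k(i)} ≤ E₀/s^γ` (`γ = ν+1/2`).
`corner_I`: if `cnt s₀ k ≥ m+1` for infinitely many `k`: split `[s₀/2, s₀)` into
`M₀ = ⌈E₀/(s₀/2)^γ⌉ + 1` half-open intervals; for each such `k` one of them contains no `t_k(i)`;
pass to a subsequence with the same interval `[α', β)` and the same number `K = cnt β k ≥ m+1`
(`K ≤ E₀/β^γ`); take `ι` an enumeration of `{i : β ≤ t(i)}` and `α = (α'+β)/2` (the others are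
`< α'`). Then a further subsequence makes `t_k(ι i)` converge (compactness of `[β,Λ]^K`).
`corner_II`: if eventually `cnt s k ≤ m` for every `s > 0`: let `K` be the largest integer such
that for some `s₁ > 0`, `cnt s₁ k ≥ K` for infinitely many `k`; along these `k`, eventually
`cnt s k = K` for every `0 < s ≤ s₁`. Again pass to a subsequence.
Subsequences are `D ∘ σ`, `σ` strictly increasing; `GoodSeq.comp` says they stay good.
-/

set_option autoImplicit false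
open MeasureTheory Set Matrix Filter Topology
open scoped ComplexOrder
open Crest.MathPhysics.LiebThirring

namespace Crest.Agent.R332

/-- number of eigenvalues of `T` that are `≥ s` -/
noncomputable def RData.cnt {ν : ℝ} {m : ℕ} (D : RData ν m) (s : ℝ) : ℕ :=
  Set.ncard {i : Fin D.N | s ≤ D.t i}

theorem GoodSeq.comp {ν : ℝ} {m : ℕ} {W : ℝ → Matrix (Fin m) (Fin m) ℂ} {G : ℝ → ℝ}
    {Λ E₀ : ℝ} {D : ℕ → RData ν m} (h : GoodSeq ν m W G Λ E₀ D) {σ : ℕ → ℕ}
    (hσ : StrictMono σ) : GoodSeq ν m W G Λ E₀ (fun k => D (σ k)) where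
  L_ge := fun k => le_trans (by exact_mod_cast hσ.le_apply) (h.L_ge (σ k))
  t_le := fun k i => h.t_le (σ k) i
  sum_le := fun k => h.sum_le (σ k)
  err := h.err.comp hσ.tendsto_atTop
  G_int := h.G_int
  dom := by filter_upwards [h.dom] with x hx k using hx (σ k)
  potm_lim := by filter_upwards [h.potm_lim] with x hx using hx.comp hσ.tendsto_atTop
  du := h.du.comp hσ.tendsto_atTop
  comm_int := h.comm_int.comp hσ.tendsto_atTop
  comm_ae := by filter_upwards [h.comm_ae] with x hx using hx.comp hσ.tendsto_atTop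
  dft_ae := by filter_upwards [h.dft_ae] with x hx using hx.comp hσ.tendsto_atTop

theorem Corner.comp {ν : ℝ} {m : ℕ} {D : ℕ → RData ν m} {K : ℕ}
    {ι : (k : ℕ) → Fin K → Fin (D k).N} {α β : ℝ} {tt : Fin K → ℝ} (h : Corner D K ι α β tt)
    {σ : ℕ → ℕ} (hσ : StrictMono σ) :
    Corner (fun k => D (σ k)) K (fun k => ι (σ k)) α β tt where
  pos := h.pos
  gap := h.gap
  inj := fun k => h.inj (σ k)
  lower := fun k i => h.lower (σ k) i
  upper := fun k j hj => h.upper (σ k) j hj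
  lim := fun i => (h.lim i).comp hσ.tendsto_atTop

namespace H4_aux

theorem cnt_eq {ν : ℝ} {m : ℕ} (D : RData ν m) (s : ℝ) :
    D.cnt s = (Finset.univ.filter fun i => s ≤ D.t i).card := by
  unfold RData.cnt
  rw [← Set.ncard_coe_finset]
  congr 1
  ext i
  simp

theorem cnt_anti {ν : ℝ} {m : ℕ} (D : RData ν m) {s s' : ℝ} (h : s ≤ s') :
    D.cnt s' ≤ D.cnt s := by
  rw [cnt_eq, cnt_eq]
  refine Finset.card_le_card fun i hi => ?_
  simp only [Finset.mem_filter, Finset.mem_univ, true_and] at hi ⊢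
  exact h.trans hi

theorem cnt_bound {ν : ℝ} (h0 : 0 < ν) {m : ℕ} (D : RData ν m) {E₀ s : ℝ} (hs : 0 < s)
    (hE : ∑ i, (D.t i) ^ (ν + 1 / 2) ≤ E₀) : (D.cnt s : ℝ) ≤ E₀ / s ^ (ν + 1 / 2) := by
  have hp : 0 < s ^ (ν + 1 / 2) := Real.rpow_pos_of_pos hs _
  rw [le_div_iff₀ hp, cnt_eq]
  calc ((Finset.univ.filter fun i => s ≤ D.t i).card : ℝ) * s ^ (ν + 1 / 2)
      = ∑ i ∈ Finset.univ.filter (fun i => s ≤ D.t i), s ^ (ν + 1 / 2) := by
        rw [Finset.sum_const, nsmul_eq_mul]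
    _ ≤ ∑ i ∈ Finset.univ.filter (fun i => s ≤ D.t i), (D.t i) ^ (ν + 1 / 2) := by
        refine Finset.sum_le_sum fun i hi => ?_
        rw [Finset.mem_filter] at hi
        exact Real.rpow_le_rpow hs.le hi.2 (by positivity)
    _ ≤ ∑ i, (D.t i) ^ (ν + 1 / 2) :=
        Finset.sum_le_sum_of_subset_of_nonneg (Finset.filter_subset _ _) fun i _ _ =>
          Real.rpow_nonneg (D.t_pos i).le _
    _ ≤ E₀ := hE

theorem mk_corner {ν : ℝ} {m : ℕ} {D : ℕ → RData ν m} {Λ : ℝ} (hΛ : ∀ k i, (D k).t i ≤ Λ) {K : ℕ}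
    {α β : ℝ} (hβ : 0 < β) (hαβ : α < β) (hK : ∀ k, (D k).cnt β = K)
    (hgap : ∀ k j, (D k).t j < β → (D k).t j ≤ α) :
    ∃ (φ : ℕ → ℕ) (ι : (k : ℕ) → Fin K → Fin (D (φ k)).N) (tt : Fin K → ℝ), StrictMono φ ∧
      Corner (fun k => D (φ k)) K ι α β tt ∧
      ∀ k, Set.range (ι k) = {j | β ≤ (D (φ k)).t j} := by
  classical
  let S : (k : ℕ) → Finset (Fin (D k).N) := fun k => Finset.univ.filter fun i => β ≤ (D k).t i
  have hS : ∀ k, (S k).card = K := fun k => by rw [← hK k, cnt_eq]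
  let ι : (k : ℕ) → Fin K → Fin (D k).N := fun k => (S k).orderEmbOfFin (hS k)
  have hr : ∀ k, Set.range (ι k) = {j | β ≤ (D k).t j} := by
    intro k
    have := Finset.range_orderEmbOfFin (S k) (hS k)
    show Set.range ((S k).orderEmbOfFin (hS k)) = _
    rw [this]
    ext j
    simp [S]
  have hlow : ∀ k i, β ≤ (D k).t (ι k i) := by
    intro k i
    have : ι k i ∈ Set.range (ι k) := ⟨i, rfl⟩
    rw [hr k] at this
    exact this
  have hcpt : IsCompact (Set.pi Set.univ (fun _ : Fin K => Set.Icc β Λ)) :=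
    isCompact_univ_pi fun _ => isCompact_Icc
  obtain ⟨tt, -, φ, hφ, hlim⟩ := hcpt.tendsto_subseq (x := fun k i => (D k).t (ι k i))
    fun k i _ => ⟨hlow k i, hΛ k _⟩
  refine ⟨φ, fun k => ι (φ k), tt, hφ, ?_, fun k => hr (φ k)⟩
  refine ⟨hβ, hαβ, fun k => ((S (φ k)).orderEmbOfFin (hS (φ k))).injective,
    fun k i => hlow (φ k) i, fun k j hj => ?_, fun i => ?_⟩
  · apply hgap
    rw [hr (φ k)] at hj
    exact not_le.1 hj
  · exact (tendsto_pi_nhds.1 hlim) i

theorem exists_frequently {ι : Type*} [Finite ι] {p : ι → ℕ → Prop}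
    (h : ∃ᶠ k in atTop, ∃ i, p i k) : ∃ i, ∃ᶠ k in atTop, p i k := by
  by_contra hcon
  push Not at hcon
  have h1 : ∀ᶠ k in atTop, ∀ i, ¬ p i k := eventually_all.2 hcon
  exact h (h1.mono fun k hk => by push Not; exact hk)

end H4_aux

open H4_aux in
theorem corner_I {ν : ℝ} (h0 : 0 < ν) {m : ℕ} {W : ℝ → Matrix (Fin m) (Fin m) ℂ} {G : ℝ → ℝ}
    {Λ E₀ : ℝ} {D : ℕ → RData ν m} (h : GoodSeq ν m W G Λ E₀ D) {s₀ : ℝ} (hs : 0 < s₀)
    (hfreq : ∃ᶠ k in atTop, m + 1 ≤ (D k).cnt s₀) :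
    ∃ (σ : ℕ → ℕ) (K : ℕ) (ι : (k : ℕ) → Fin K → Fin (D (σ k)).N) (α β : ℝ) (tt : Fin K → ℝ),
      StrictMono σ ∧ m + 1 ≤ K ∧ Corner (fun k => D (σ k)) K ι α β tt := by
  classical
  -- number of eigenvalues above `s₀/2`
  obtain ⟨M, hM⟩ := exists_nat_gt (E₀ / (s₀ / 2) ^ (ν + 1 / 2))
  have hcb : ∀ k, (D k).cnt (s₀ / 2) < M := fun k => by
    have := cnt_bound h0 (D k) (half_pos hs) (h.sum_le k)
    exact_mod_cast this.trans_lt hM
  have hMpos : 0 < M := lt_of_le_of_lt (Nat.zero_le _) (hcb 0)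
  have hMR : (0 : ℝ) < M := by exact_mod_cast hMpos
  set w : ℝ := s₀ / 2 / M with hw
  have hwpos : 0 < w := by positivity
  -- end points
  let e : ℕ → ℝ := fun j => s₀ / 2 + j * w
  have he0 : e 0 = s₀ / 2 := by simp [e]
  have heM : e M = s₀ := by
    simp only [e, hw]
    field_simp
    ring
  have hemono : ∀ {i j : ℕ}, i ≤ j → e i ≤ e j := by
    intro i j hij
    have : (i : ℝ) ≤ j := by exact_mod_cast hij
    simp only [e]
    nlinarith
  -- for every k some interval is free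
  have hfree : ∀ k, ∃ j : Fin M, ∀ i, ¬ (e j ≤ (D k).t i ∧ (D k).t i < e (j + 1)) := by
    intro k
    by_contra hcon
    push Not at hcon
    choose f hf using hcon
    have hinj : Function.Injective f := by
      intro a b hab
      by_contra hne
      rcases lt_or_gt_of_ne (fun h => hne (Fin.ext h) : (a : ℕ) ≠ b) with hlt | hlt
      · have h1 := (hf a).2
        have h2 := (hf b).1
        rw [hab] at h1
        have := hemono (show (a : ℕ) + 1 ≤ b from hlt)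
        linarith
      · have h1 := (hf b).2
        have h2 := (hf a).1
        rw [← hab] at h1
        have := hemono (show (b : ℕ) + 1 ≤ a from hlt)
        linarith
    have hsub : Finset.univ.image f ⊆ Finset.univ.filter fun i => s₀ / 2 ≤ (D k).t i := by
      intro i hi
      rw [Finset.mem_image] at hi
      obtain ⟨j, -, rfl⟩ := hi
      rw [Finset.mem_filter]
      refine ⟨Finset.mem_univ _, ?_⟩
      have h1 := (hf j).1
      have h2 := hemono (Nat.zero_le (j : ℕ))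
      rw [he0] at h2
      exact h2.trans h1
    have := Finset.card_le_card hsub
    rw [Finset.card_image_of_injective _ hinj, Finset.card_univ, Fintype.card_fin,
      ← cnt_eq] at this
    have := hcb k
    omega
  -- choose the interval and the number
  have hfr : ∃ᶠ k in atTop, ∃ q : Fin M × Fin (M + 1), (m + 1 ≤ (D k).cnt s₀ ∧
      (∀ i, ¬ (e q.1 ≤ (D k).t i ∧ (D k).t i < e (q.1 + 1)))) ∧ (D k).cnt (e (q.1 + 1)) = q.2 := by
    refine hfreq.mono fun k hk => ?_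
    obtain ⟨j, hj⟩ := hfree k
    have h1 : (D k).cnt (e (j + 1)) ≤ (D k).cnt (s₀ / 2) := by
      apply cnt_anti
      rw [← he0]
      exact hemono (Nat.zero_le _)
    have := hcb k
    exact ⟨(j, ⟨(D k).cnt (e (j + 1)), by omega⟩), ⟨hk, hj⟩, rfl⟩
  obtain ⟨⟨j, K⟩, hq⟩ := exists_frequently hfr
  obtain ⟨σ₁, hσ₁, hP⟩ := extraction_of_frequently_atTop hq
  simp only at hP
  have hβ : 0 < e (j + 1) := by
    have := hemono (Nat.zero_le ((j : ℕ) + 1))
    rw [he0] at this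
    linarith
  have hαβ : e j < e (j + 1) := by
    simp only [e]; push_cast; nlinarith
  obtain ⟨φ, ι, tt, hφ, hcor, -⟩ := mk_corner (D := fun k => D (σ₁ k)) (Λ := Λ)
    (fun k i => h.t_le (σ₁ k) i) (K := K) (α := e j) (β := e (j + 1)) hβ hαβ
    (fun k => (hP k).2) (fun k i hi => by
      by_contra hlt
      exact (hP k).1.2 i ⟨(not_le.1 hlt).le, hi⟩)
  refine ⟨σ₁ ∘ φ, K, ι, e j, e (j + 1), tt, hσ₁.comp hφ, ?_, hcor⟩
  have h1 := (hP 0).1.1
  have h2 : (D (σ₁ 0)).cnt s₀ ≤ (D (σ₁ 0)).cnt (e (j + 1)) := by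
    apply cnt_anti
    rw [← heM]
    exact hemono j.2
  rw [(hP 0).2] at h2
  omega

open H4_aux in
theorem corner_II {ν : ℝ} (h0 : 0 < ν) {m : ℕ} {W : ℝ → Matrix (Fin m) (Fin m) ℂ} {G : ℝ → ℝ}
    {Λ E₀ : ℝ} {D : ℕ → RData ν m} (h : GoodSeq ν m W G Λ E₀ D)
    (hcnt : ∀ s : ℝ, 0 < s → ∀ᶠ k in atTop, (D k).cnt s ≤ m) :
    ∃ (σ : ℕ → ℕ) (K : ℕ) (ι : (k : ℕ) → Fin K → Fin (D (σ k)).N) (α β : ℝ) (tt : Fin K → ℝ),
      StrictMono σ ∧ K ≤ m ∧ Corner (fun k => D (σ k)) K ι α β tt ∧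
      ∀ s : ℝ, 0 < s → ∀ᶠ k in atTop, ∀ j, j ∉ Set.range (ι k) → (D (σ k)).t j ≤ s := by
  classical
  let Q : ℕ → Prop := fun K => ∃ s₁ : ℝ, 0 < s₁ ∧ ∃ᶠ k in atTop, K ≤ (D k).cnt s₁
  have hQ0 : Q 0 := ⟨1, one_pos, (Eventually.of_forall fun k => Nat.zero_le _).frequently⟩
  have hQm : ∀ K, Q K → K ≤ m := by
    rintro K ⟨s₁, hs₁, hf⟩
    obtain ⟨k, hk1, hk2⟩ := (hf.and_eventually (hcnt s₁ hs₁)).exists
    exact hk1.trans hk2
  set K := Nat.findGreatest Q m with hKdef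
  have hQK : Q K := Nat.findGreatest_spec (Nat.zero_le m) hQ0
  have hKm : K ≤ m := Nat.findGreatest_le m
  have hmax : ∀ s : ℝ, 0 < s → ∀ᶠ k in atTop, (D k).cnt s ≤ K := by
    intro s hs
    by_contra hcon
    have hf : ∃ᶠ k in atTop, K + 1 ≤ (D k).cnt s := by
      rw [Filter.not_eventually] at hcon
      exact hcon.mono fun k hk => by omega
    have h1 : Q (K + 1) := ⟨s, hs, hf⟩
    have h2 := Nat.le_findGreatest (hQm _ h1) h1
    omega
  obtain ⟨s₁, hs₁, hf⟩ := hQK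
  obtain ⟨σ₁, hσ₁, hP⟩ := extraction_of_frequently_atTop
    (hf.and_eventually (hmax (s₁ / 2) (half_pos hs₁)))
  have hhalf : s₁ / 2 ≤ s₁ := by linarith
  have hKeq : ∀ k, (D (σ₁ k)).cnt s₁ = K := fun k =>
    le_antisymm ((cnt_anti _ hhalf).trans (hP k).2) (hP k).1
  have key : ∀ (k : ℕ) (s : ℝ), s ≤ s₁ → (D (σ₁ k)).cnt s ≤ K → ∀ j, (D (σ₁ k)).t j < s₁ →
      (D (σ₁ k)).t j < s := by
    intro k s hs hk j hj
    by_contra hcon
    have hsub : (Finset.univ.filter fun i => s₁ ≤ (D (σ₁ k)).t i) ⊆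
        Finset.univ.filter fun i => s ≤ (D (σ₁ k)).t i := by
      intro i hi
      rw [Finset.mem_filter] at hi ⊢
      exact ⟨hi.1, hs.trans hi.2⟩
    have heq := Finset.eq_of_subset_of_card_le hsub (by
      rw [← cnt_eq, ← cnt_eq, hKeq k]; exact hk)
    have : j ∈ Finset.univ.filter fun i => s ≤ (D (σ₁ k)).t i := by
      rw [Finset.mem_filter]; exact ⟨Finset.mem_univ _, not_lt.1 hcon⟩
    rw [← heq, Finset.mem_filter] at this
    exact absurd this.2 (not_le.2 hj)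
  obtain ⟨φ, ι, tt, hφ, hcor, hrange⟩ := mk_corner (D := fun k => D (σ₁ k)) (Λ := Λ)
    (fun k i => h.t_le (σ₁ k) i) (K := K) (α := s₁ / 2) (β := s₁) hs₁ (by linarith)
    hKeq (fun k i hi => (key k (s₁ / 2) hhalf (hP k).2 i hi).le)
  refine ⟨σ₁ ∘ φ, K, ι, s₁ / 2, s₁, tt, hσ₁.comp hφ, hKm, hcor, fun s hs => ?_⟩
  have h1 : ∀ᶠ k in atTop, (D ((σ₁ ∘ φ) k)).cnt (min s s₁) ≤ K :=
    (hσ₁.comp hφ).tendsto_atTop.eventually (hmax (min s s₁) (lt_min hs hs₁))
  filter_upwards [h1] with k hk j hj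
  have h2 : (D (σ₁ (φ k))).t j < s₁ := by
    rw [hrange k] at hj
    exact not_le.1 hj
  exact (key (φ k) (min s s₁) (min_le_right _ _) hk j h2).le.trans (min_le_left _ _)

end Crest.Agent.R332
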