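import Crest.Agent.R332.H4
import Crest.Agent.R332.HL
import Crest.Agent.R332.H5A

/-!
# R332 piece H5: the limit flow of a corner

Write `F_k = F.submatrix ι ι` (`K × K`), `T_k = dg (t ∘ ι)`, `e_k = off ι F` (`HL`),
`g_k = dft.submatrix ι ι = (ν/(1+ν)) P_k - (T_k - (F²)_{ιι})`. On `[-L_k, L_k]` (`L_k ≥ k`):
`F_k' = T_k - (F²)_{ιι} - P_k = -(1/ν)(T_k - F_k F_k) + (1/ν) e_k - ((1+ν)/ν) g_k`.
* `∫_{-X}^{X} tr e_k → 0` (`off_bound`, `comm_int`).
* `∫_{-X}^{X} ‖g_k‖ → 0`: `hs2 g_k ≤ hs2 dft → 0` a.e.; dominated: `|P_ij| ≤ tr P ≤ m + tr P^p ≤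
  m + G` (`tr P = tr potm`, `m × m`, `s ≤ 1 + s^p`), `‖F‖ ≤ √Λ`, `t ≤ Λ`.
* `F_k` is bounded by `√Λ`; pass to a subsequence with `F_k(0)` convergent (compactness).
* Grönwall for the difference of two members: `F_k(x)` is Cauchy, uniformly on `[-X,X]`;
  the limit `Ft` satisfies the integral equation, hence the ODE.
* `[T̃, Ft(x)] = 0`: a.e. from `comm_ae`, for all `x` by continuity. `Btw` is closed.
* `P_k(x) → ((1+ν)/ν)(T̃ - Ft(x)²)` a.e.: from `dft_ae` and `tr e_k(x) ≤ hs2(comm)/(β-α)² → 0`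
  a.e.
-/

set_option autoImplicit false
open MeasureTheory Set Matrix Filter Topology
open scoped ComplexOrder
open Crest.MathPhysics.LiebThirring

namespace Crest.Agent.R332

/-- conclusions of the corner limit -/
structure CornerLimit {ν : ℝ} {m : ℕ} (D : ℕ → RData ν m) (K : ℕ)
    (ι : (k : ℕ) → Fin K → Fin (D k).N) (tt : Fin K → ℝ)
    (Ft : ℝ → Matrix (Fin K) (Fin K) ℂ) : Prop where
  F_lim : ∀ x, Tendsto (fun k => ((D k).F x).submatrix (ι k) (ι k)) atTop (𝓝 (Ft x))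
  ode : ∀ x i j, HasDerivAt (fun y => Ft y i j)
    ((((-ν⁻¹ : ℝ) : ℂ) • (dg tt - Ft x * Ft x)) i j) x
  comm : ∀ x, dg tt * Ft x = Ft x * dg tt
  btw : ∀ x, Btw (fun i => √(tt i)) (Ft x)
  P_lim : ∀ᵐ x : ℝ, Tendsto (fun k => ((D k).P x).submatrix (ι k) (ι k)) atTop
    (𝓝 ((((1 + ν) / ν : ℝ) : ℂ) • (dg tt - Ft x * Ft x)))

theorem CornerLimit.comp {ν : ℝ} {m : ℕ} {D : ℕ → RData ν m} {K : ℕ}
    {ι : (k : ℕ) → Fin K → Fin (D k).N} {tt : Fin K → ℝ} {Ft : ℝ → Matrix (Fin K) (Fin K) ℂ}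
    (h : CornerLimit D K ι tt Ft) {σ : ℕ → ℕ} (hσ : StrictMono σ) :
    CornerLimit (fun k => D (σ k)) K (fun k => ι (σ k)) tt Ft := by
  refine ⟨fun x => (h.F_lim x).comp hσ.tendsto_atTop, h.ode, h.comm, h.btw, ?_⟩
  filter_upwards [h.P_lim] with x hx
  exact hx.comp hσ.tendsto_atTop

namespace H5_aux

variable {n N K m : ℕ}

/-- rows of a unitary matrix: `Σ_k |u_ik| |u_jk| ≤ 1` -/
theorem row_cs {u : Matrix (Fin n) (Fin n) ℂ} (hu : u * uᴴ = 1) (i j : Fin n) :
    ∑ k, ‖u i k‖ * ‖u j k‖ ≤ 1 := by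
  have hrow : ∀ i, ∑ k, ‖u i k‖ ^ 2 = 1 := by
    intro i
    have h1 : (u * uᴴ) i i = 1 := by rw [hu]; simp
    rw [Matrix.mul_apply] at h1
    have h3 : ∑ l, ((‖u i l‖ ^ 2 : ℝ) : ℂ) = 1 := by
      rw [← h1]
      refine Finset.sum_congr rfl fun l _ => ?_
      rw [Matrix.conjTranspose_apply]
      rw [← Complex.normSq_eq_norm_sq, Complex.normSq_eq_conj_mul_self, mul_comm]
      rfl
    exact_mod_cast h3
  have h2 : ∀ k, ‖u i k‖ * ‖u j k‖ ≤ (‖u i k‖ ^ 2 + ‖u j k‖ ^ 2) / 2 := fun k => by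
    nlinarith [sq_nonneg (‖u i k‖ - ‖u j k‖)]
  calc ∑ k, ‖u i k‖ * ‖u j k‖ ≤ ∑ k, (‖u i k‖ ^ 2 + ‖u j k‖ ^ 2) / 2 :=
        Finset.sum_le_sum fun k _ => h2 k
    _ = 1 := by rw [← Finset.sum_div, Finset.sum_add_distrib, hrow, hrow]; norm_num

theorem entry_conj (u : Matrix (Fin n) (Fin n) ℂ) (a : Fin n → ℝ) (i j : Fin n) :
    (u * dg a * uᴴ) i j = ∑ k, u i k * (a k : ℂ) * star (u j k) := by
  rw [Matrix.mul_apply]
  refine Finset.sum_congr rfl fun k _ => ?_
  unfold dg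
  rw [Matrix.mul_diagonal, Matrix.conjTranspose_apply]

theorem entry_conj_le {u : Matrix (Fin n) (Fin n) ℂ} (hu : u * uᴴ = 1) {a : Fin n → ℝ} {c : ℝ}
    (hc : 0 ≤ c) (ha : ∀ k, |a k| ≤ c) (i j : Fin n) : ‖(u * dg a * uᴴ) i j‖ ≤ c := by
  rw [entry_conj]
  calc ‖∑ k, u i k * (a k : ℂ) * star (u j k)‖ ≤ ∑ k, ‖u i k * (a k : ℂ) * star (u j k)‖ :=
        norm_sum_le _ _
    _ ≤ ∑ k, c * (‖u i k‖ * ‖u j k‖) := Finset.sum_le_sum fun k _ => by
        rw [norm_mul, norm_mul, norm_star, Complex.norm_real, Real.norm_eq_abs]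
        have := mul_le_mul_of_nonneg_right (ha k)
          (mul_nonneg (norm_nonneg (u i k)) (norm_nonneg (u j k)))
        linarith
    _ = c * ∑ k, ‖u i k‖ * ‖u j k‖ := by rw [Finset.mul_sum]
    _ ≤ c * 1 := mul_le_mul_of_nonneg_left (row_cs hu i j) hc
    _ = c := mul_one c

theorem psd_entry {A : Matrix (Fin n) (Fin n) ℂ} (hA : A.PosSemidef) (i j : Fin n) :
    ‖A i j‖ ≤ rtr A := by
  obtain ⟨u, a, hu, hu', hA'⟩ := exists_diag hA.isHermitian
  have ha := diag_nonneg hu hA' hA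
  have htr : rtr A = ∑ k, a k := by rw [hA', rtr_conj hu, rtr_dg]
  rw [htr, hA']
  refine entry_conj_le hu' (Finset.sum_nonneg fun k _ => ha k) (fun k => ?_) i j
  rw [abs_of_nonneg (ha k)]
  exact Finset.single_le_sum (f := a) (fun k _ => ha k) (Finset.mem_univ k)

theorem entry_sq_le_hs2 (A : Matrix (Fin n) (Fin n) ℂ) (i j : Fin n) : ‖A i j‖ ^ 2 ≤ hs2 A := by
  unfold hs2
  calc ‖A i j‖ ^ 2 ≤ ∑ j, ‖A i j‖ ^ 2 :=
        Finset.single_le_sum (f := fun j => ‖A i j‖ ^ 2) (fun _ _ => by positivity)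
          (Finset.mem_univ j)
    _ ≤ _ := Finset.single_le_sum (f := fun i => ∑ j, ‖A i j‖ ^ 2)
        (fun _ _ => Finset.sum_nonneg fun _ _ => by positivity) (Finset.mem_univ i)

/-- bounds for a matrix between `-√t` and `√t`, `t ≤ Λ` -/
theorem btw_bounds {t : Fin n → ℝ} {F : Matrix (Fin n) (Fin n) ℂ} {Λ : ℝ}
    (hF : Btw (fun i => √(t i)) F) (ht : ∀ i, t i ≤ Λ) (i j : Fin n) :
    ‖F i j‖ ≤ √Λ ∧ ‖(F * F) i j‖ ≤ |Λ| := by
  obtain ⟨u, a, hu, hu', hA⟩ := exists_diag hF.isHermitian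
  have hst : ∀ i, √(t i) ≤ √Λ := fun i => Real.sqrt_le_sqrt (ht i)
  have hdg : dg (fun i => √Λ) = u * dg (fun _ => √Λ) * uᴴ := by
    have : dg (fun _ : Fin n => √Λ) = ((√Λ : ℝ) : ℂ) • (1 : Matrix (Fin n) (Fin n) ℂ) := by
      unfold dg
      ext i j
      by_cases h : i = j
      · subst h; simp
      · simp [h]
    rw [this, Matrix.mul_smul, Matrix.mul_one, Matrix.smul_mul, hu']
  have hup : ∀ k, a k ≤ √Λ := by
    have h1 : (dg (fun i => √Λ) - F).PosSemidef := by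
      have h2 : (dg (fun i => √Λ - √(t i))).PosSemidef :=
        dg_posSemidef fun i => by linarith [hst i]
      have h3 := h2.add hF.1
      convert h3 using 1
      unfold dg
      ext i j
      by_cases h : i = j
      · subst h; simp
      · simp [h]
    have h4 : dg (fun i => √Λ) - F = u * dg (fun k => √Λ - a k) * uᴴ := by
      rw [hdg, hA, ← Matrix.sub_mul, ← Matrix.mul_sub]
      congr 2
      unfold dg
      ext i j
      by_cases h : i = j
      · subst h; simp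
      · simp [h]
    intro k
    have := diag_nonneg hu h4 h1 k
    linarith
  have hlo : ∀ k, -√Λ ≤ a k := by
    have h1 : (dg (fun i => √Λ) + F).PosSemidef := by
      have h2 : (dg (fun i => √Λ - √(t i))).PosSemidef :=
        dg_posSemidef fun i => by linarith [hst i]
      have h3 := h2.add hF.2
      convert h3 using 1
      unfold dg
      ext i j
      by_cases h : i = j
      · subst h; simp; ring
      · simp [h]
    have h4 : dg (fun i => √Λ) + F = u * dg (fun k => √Λ + a k) * uᴴ := by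
      rw [hdg, hA, ← Matrix.add_mul, ← Matrix.mul_add]
      congr 2
      unfold dg
      ext i j
      by_cases h : i = j
      · subst h; simp
      · simp [h]
    intro k
    have := diag_nonneg hu h4 h1 k
    linarith
  have hab : ∀ k, |a k| ≤ √Λ := fun k => abs_le.2 ⟨hlo k, hup k⟩
  constructor
  · rw [hA]
    exact entry_conj_le hu' (Real.sqrt_nonneg _) hab i j
  · rw [hA, conj_dg_mul hu]
    refine entry_conj_le hu' (abs_nonneg _) (fun k => ?_) i j
    rw [abs_mul]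
    have h1 := mul_le_mul (hab k) (hab k) (abs_nonneg _) (Real.sqrt_nonneg _)
    have h2 : √Λ * √Λ ≤ |Λ| := by
      rcases le_total 0 Λ with h | h
      · rw [Real.mul_self_sqrt h, abs_of_nonneg h]
      · rw [Real.sqrt_eq_zero_of_nonpos h]; simp
    exact h1.trans h2

theorem rtr_pot_le {ν : ℝ} (h0 : 0 < ν) (h1 : ν < 1) (U : Matrix (Fin N) (Fin m) ℂ) :
    rtr (pot (lamc ν) ν⁻¹ U) ≤ m + tracePow (pot (lamc ν) ν⁻¹ U) (1 + ν) := by
  have hr : 1 < ν⁻¹ := (one_lt_inv₀ h0).2 h1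
  have hl := lamc_pos h0
  have e1 : ∀ s : ℝ, 0 < s → tracePow (pot (lamc ν) ν⁻¹ U) s = tracePow (potm (lamc ν) ν⁻¹ U) s :=
    fun s hs => by rw [tracePow_pot hl hr hs, tracePow_potm hl hr hs]
  have e2 : rtr (pot (lamc ν) ν⁻¹ U) = rtr (potm (lamc ν) ν⁻¹ U) := by
    have := e1 1 one_pos
    rwa [tracePow_eq, tracePow_eq, mpow_one (pot_posSemidef hl.le U),
      mpow_one (potm_posSemidef hl.le U)] at this
  rw [e2, e1 _ (by linarith)]
  have hpsd := potm_posSemidef (r := ν⁻¹) hl.le U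
  obtain ⟨u, a, hu, hu', hA'⟩ := exists_diag hpsd.isHermitian
  have ha := diag_nonneg hu hA' hpsd
  rw [hA', rtr_conj hu, rtr_dg, tracePow_diag hu hu']
  have h3 : ∀ k, a k ≤ 1 + (a k) ^ (1 + ν) := by
    intro k
    rcases le_total (a k) 1 with h | h
    · have := Real.rpow_nonneg (ha k) (1 + ν)
      linarith
    · have := Real.self_le_rpow_of_one_le h (by linarith : (1:ℝ) ≤ 1 + ν)
      linarith
  calc ∑ k, a k ≤ ∑ k, (1 + (a k) ^ (1 + ν)) := Finset.sum_le_sum fun k _ => h3 k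
    _ = m + ∑ k, (a k) ^ (1 + ν) := by simp [Finset.sum_add_distrib]

theorem tendsto_mat {n m : ℕ} {α : Type*} {l : Filter α} {A : α → Matrix (Fin n) (Fin m) ℂ}
    {B : Matrix (Fin n) (Fin m) ℂ} (h : ∀ i j, Tendsto (fun k => A k i j) l (𝓝 (B i j))) :
    Tendsto A l (𝓝 B) :=
  tendsto_pi_nhds.2 fun i => tendsto_pi_nhds.2 fun j => h i j

theorem tendsto_entry {n m : ℕ} {α : Type*} {l : Filter α} {A : α → Matrix (Fin n) (Fin m) ℂ}
    {B : Matrix (Fin n) (Fin m) ℂ} (h : Tendsto A l (𝓝 B)) (i : Fin n) (j : Fin m) :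
    Tendsto (fun k => A k i j) l (𝓝 (B i j)) :=
  tendsto_pi_nhds.1 (tendsto_pi_nhds.1 h i) j

/-- the limiting vector field -/
noncomputable def wf (ν : ℝ) {K : ℕ} (tt : Fin K → ℝ) (y : Fin K → Fin K → ℂ) :
    Fin K → Fin K → ℂ :=
  fun i j => ((-ν⁻¹ : ℝ) : ℂ) * (dg tt i j - ∑ l, y i l * y l j)

theorem wf_lip {ν : ℝ} (h0 : 0 < ν) {K : ℕ} (tt : Fin K → ℝ) {B : ℝ} (hB : 0 ≤ B) :
    ∃ C : NNReal, 1 ≤ C ∧ LipschitzOnWith C (wf ν tt) (Metric.closedBall 0 B) := by
  have hC0 : 0 ≤ 1 + ν⁻¹ * (K * (2 * B)) := by positivity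
  refine ⟨(1 + ν⁻¹ * (K * (2 * B))).toNNReal, ?_, LipschitzOnWith.of_dist_le_mul ?_⟩
  · rw [Real.one_le_toNNReal]
    have : 0 ≤ ν⁻¹ * (K * (2 * B)) := by positivity
    linarith
  · intro y hy z hz
    rw [mem_closedBall_zero_iff] at hy hz
    rw [Real.coe_toNNReal _ hC0]
    have hd : 0 ≤ dist y z := dist_nonneg
    have hmain : ν⁻¹ * (K * (2 * B)) * dist y z ≤ (1 + ν⁻¹ * (K * (2 * B))) * dist y z :=
      mul_le_mul_of_nonneg_right (by linarith) hd
    refine le_trans ?_ hmain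
    have hnn : 0 ≤ ν⁻¹ * (K * (2 * B)) * dist y z := by positivity
    refine (dist_pi_le_iff hnn).2 fun i => (dist_pi_le_iff hnn).2 fun j => ?_
    have e1 : wf ν tt y i j - wf ν tt z i j =
        ((ν⁻¹ : ℝ) : ℂ) * ∑ l, (y i l * (y l j - z l j) + (y i l - z i l) * z l j) := by
      unfold wf
      have : ∑ l, (y i l * (y l j - z l j) + (y i l - z i l) * z l j) =
          ∑ l, y i l * y l j - ∑ l, z i l * z l j := by
        rw [← Finset.sum_sub_distrib]
        refine Finset.sum_congr rfl fun l _ => ?_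
        ring
      rw [this]
      push_cast
      ring
    have hent : ∀ (v : Fin K → Fin K → ℂ) (i j), ‖v i j‖ ≤ ‖v‖ := fun v i j =>
      (norm_le_pi_norm (v i) j).trans (norm_le_pi_norm v i)
    have hyz : ∀ i j, ‖y i j - z i j‖ ≤ dist y z := fun i j => by
      rw [dist_eq_norm]; exact hent (y - z) i j
    rw [dist_eq_norm, e1, norm_mul, Complex.norm_real, Real.norm_of_nonneg (by positivity)]
    rw [mul_assoc]
    refine mul_le_mul_of_nonneg_left ?_ (by positivity)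
    refine (norm_sum_le _ _).trans ?_
    calc ∑ l, ‖y i l * (y l j - z l j) + (y i l - z i l) * z l j‖
        ≤ ∑ _l : Fin K, 2 * B * dist y z := Finset.sum_le_sum fun l _ => by
          refine (norm_add_le _ _).trans ?_
          rw [norm_mul, norm_mul]
          have h1 := mul_le_mul ((hent y i l).trans hy) (hyz l j) (norm_nonneg _) hB
          have h2 := mul_le_mul (hyz i l) ((hent z l j).trans hz) (norm_nonneg _) hd
          linarith
      _ = K * (2 * B) * dist y z := by simp; ring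

variable {ν : ℝ}

/-- the corner of `F` -/
noncomputable def fk (D : ℕ → RData ν m) (ι : (k : ℕ) → Fin K → Fin (D k).N) (k : ℕ) (x : ℝ) :
    Fin K → Fin K → ℂ := fun i j => (D k).F x (ι k i) (ι k j)

/-- its derivative -/
noncomputable def fk' (D : ℕ → RData ν m) (ι : (k : ℕ) → Fin K → Fin (D k).N) (k : ℕ) (x : ℝ) :
    Fin K → Fin K → ℂ :=
  fun i j => (dg (D k).t - (D k).F x * (D k).F x - (D k).P x) (ι k i) (ι k j)

theorem P_psd (h0 : 0 < ν) (D : RData ν m) (x : ℝ) : (D.P x).PosSemidef :=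
  pot_posSemidef (lamc_pos h0).le _

theorem fk_der (D : ℕ → RData ν m) (ι : (k : ℕ) → Fin K → Fin (D k).N) (k : ℕ) {x : ℝ}
    (hx : x ∈ Icc (-(D k).L) (D k).L) :
    HasDerivWithinAt (fk D ι k) (fk' D ι k x) (Icc (-(D k).L) (D k).L) x :=
  hasDerivWithinAt_pi.2 fun i => hasDerivWithinAt_pi.2 fun j =>
    (D k).F_deriv x hx (ι k i) (ι k j)

theorem F_contOn (D : RData ν m) : ContinuousOn D.F (Icc (-D.L) D.L) := by
  refine continuousOn_pi.2 fun i => continuousOn_pi.2 fun j => fun x hx => ?_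
  exact (D.F_deriv x hx i j).continuousWithinAt

theorem fk'_cont (h0 : 0 < ν) (h1 : ν < 1) (D : ℕ → RData ν m)
    (ι : (k : ℕ) → Fin K → Fin (D k).N) (k : ℕ) :
    ContinuousOn (fk' D ι k) (Icc (-(D k).L) (D k).L) := by
  have hr : 1 < ν⁻¹ := (one_lt_inv₀ h0).2 h1
  refine continuousOn_pi.2 fun i => continuousOn_pi.2 fun j => ?_
  have hF := F_contOn (D k)
  have hP : Continuous (D k).P := (continuous_pot hr).comp (D k).U_cont
  have hFF : ContinuousOn (fun x => (D k).F x * (D k).F x) (Icc (-(D k).L) (D k).L) :=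
    (Continuous.matrix_mul continuous_fst continuous_snd).comp_continuousOn (hF.prodMk hF)
  have hM : ContinuousOn (fun x => dg (D k).t - (D k).F x * (D k).F x - (D k).P x)
      (Icc (-(D k).L) (D k).L) := (continuousOn_const.sub hFF).sub hP.continuousOn
  exact (continuous_id.matrix_elem (ι k i) (ι k j)).comp_continuousOn hM

theorem fk_bdd {W : ℝ → Matrix (Fin m) (Fin m) ℂ} {G : ℝ → ℝ} {Λ E₀ : ℝ} {D : ℕ → RData ν m}
    (hG : GoodSeq ν m W G Λ E₀ D) (ι : (k : ℕ) → Fin K → Fin (D k).N) (k : ℕ) {x : ℝ}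
    (hx : x ∈ Icc (-(D k).L) (D k).L) : ‖fk D ι k x‖ ≤ √Λ := by
  refine (pi_norm_le_iff_of_nonneg (Real.sqrt_nonneg _)).2 fun i =>
    (pi_norm_le_iff_of_nonneg (Real.sqrt_nonneg _)).2 fun j => ?_
  exact (btw_bounds ((D k).F_btw x hx) (hG.t_le k) _ _).1

theorem dg_entry_le {n : ℕ} {t : Fin n → ℝ} {Λ : ℝ} (h0 : ∀ i, 0 < t i) (h : ∀ i, t i ≤ Λ)
    (i j : Fin n) : ‖dg t i j‖ ≤ |Λ| := by
  unfold dg
  by_cases hij : i = j
  · subst hij
    rw [Matrix.diagonal_apply_eq, Complex.norm_real, Real.norm_of_nonneg (h0 i).le]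
    exact (h i).trans (le_abs_self _)
  · rw [Matrix.diagonal_apply_ne _ hij]
    simp

theorem fk'_bdd (h0 : 0 < ν) (h1 : ν < 1) {W : ℝ → Matrix (Fin m) (Fin m) ℂ} {G : ℝ → ℝ}
    {Λ E₀ : ℝ} {D : ℕ → RData ν m}
    (hG : GoodSeq ν m W G Λ E₀ D) (ι : (k : ℕ) → Fin K → Fin (D k).N) (k : ℕ) {x : ℝ}
    (hx : x ∈ Icc (-(D k).L) (D k).L) (hd : tracePow ((D k).P x) (1 + ν) ≤ G x) :
    ‖fk' D ι k x‖ ≤ 2 * |Λ| + m + |G x| := by
  have hnn : 0 ≤ 2 * |Λ| + m + |G x| := by positivity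
  refine (pi_norm_le_iff_of_nonneg hnn).2 fun i => (pi_norm_le_iff_of_nonneg hnn).2 fun j => ?_
  have e1 := dg_entry_le (D k).t_pos (hG.t_le k) (ι k i) (ι k j)
  have e2 := (btw_bounds ((D k).F_btw x hx) (hG.t_le k) (ι k i) (ι k j)).2
  have e3 := psd_entry (P_psd h0 (D k) x) (ι k i) (ι k j)
  have e4 := rtr_pot_le h0 h1 ((D k).U x)
  have e5 : rtr ((D k).P x) ≤ m + G x := e4.trans (by
    have : tracePow (pot (lamc ν) ν⁻¹ ((D k).U x)) (1 + ν) ≤ G x := hd
    linarith)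
  have e6 := le_abs_self (G x)
  show ‖(dg (D k).t - (D k).F x * (D k).F x - (D k).P x) (ι k i) (ι k j)‖ ≤ _
  rw [Matrix.sub_apply, Matrix.sub_apply]
  refine (norm_sub_le _ _).trans ?_
  have e7 := norm_sub_le (dg (D k).t (ι k i) (ι k j)) (((D k).F x * (D k).F x) (ι k i) (ι k j))
  linarith

/-- the commutator entries tend to zero -/
theorem comm_entry (D : RData ν m) (x : ℝ) (i j : Fin D.N) :
    D.comm x i j = (D.t i : ℂ) * D.F x i j - D.F x i j * (D.t j : ℂ) := by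
  unfold RData.comm dg
  rw [Matrix.sub_apply, Matrix.diagonal_mul, Matrix.mul_diagonal]

theorem entry_tendsto_of_hs2 {N : ℕ → ℕ} {A : (k : ℕ) → Matrix (Fin (N k)) (Fin (N k)) ℂ}
    (h : Tendsto (fun k => hs2 (A k)) atTop (𝓝 0)) (i j : (k : ℕ) → Fin (N k)) :
    Tendsto (fun k => A k (i k) (j k)) atTop (𝓝 0) := by
  rw [tendsto_zero_iff_norm_tendsto_zero]
  have h2 : Tendsto (fun k => √(hs2 (A k))) atTop (𝓝 0) := by
    have := (Real.continuous_sqrt.tendsto 0).comp h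
    simpa [Function.comp_def] using this
  refine squeeze_zero (fun k => norm_nonneg _) (fun k => ?_) h2
  exact Real.le_sqrt_of_sq_le (entry_sq_le_hs2 _ _ _)

theorem off_entry {W : ℝ → Matrix (Fin m) (Fin m) ℂ} {G : ℝ → ℝ} {Λ E₀ : ℝ}
    {D : ℕ → RData ν m} (hG : GoodSeq ν m W G Λ E₀ D) {ι : (k : ℕ) → Fin K → Fin (D k).N}
    {α β : ℝ} {tt : Fin K → ℝ} (hC : Corner D K ι α β tt) {x : ℝ}
    (hx : Tendsto (fun k => hs2 ((D k).comm x)) atTop (𝓝 0)) (i j : Fin K) :
    Tendsto (fun k => off (ι k) ((D k).F x) i j) atTop (𝓝 0) := by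
  have h2 : Tendsto (fun k => hs2 ((D k).comm x) / (β - α) ^ 2) atTop (𝓝 0) := by
    simpa using hx.div_const ((β - α) ^ 2)
  refine squeeze_zero_norm' ?_ h2
  filter_upwards [eventually_ge_atTop ⌈|x|⌉₊] with k hk
  have hL : |x| ≤ (D k).L := by
    have h3 : |x| ≤ (k : ℝ) := (Nat.le_ceil _).trans (by exact_mod_cast hk)
    exact h3.trans (hG.L_ge k)
  have hxI : x ∈ Icc (-(D k).L) (D k).L := abs_le.1 hL
  have hH := ((D k).F_btw x hxI).isHermitian
  have e1 := psd_entry (off_posSemidef (hC.inj k) hH) i j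
  have e2 := off_bound (hC.inj k) hH (D k).t hC.gap (hC.lower k) (hC.upper k)
  exact e1.trans e2

theorem dg_lim {D : ℕ → RData ν m} {ι : (k : ℕ) → Fin K → Fin (D k).N}
    {α β : ℝ} {tt : Fin K → ℝ} (hC : Corner D K ι α β tt) (i j : Fin K) :
    Tendsto (fun k => dg (D k).t (ι k i) (ι k j)) atTop (𝓝 (dg tt i j)) := by
  unfold dg
  by_cases hij : i = j
  · subst hij
    simp only [Matrix.diagonal_apply_eq]
    exact (Complex.continuous_ofReal.tendsto _).comp (hC.lim i)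
  · have h2 : ∀ k, ι k i ≠ ι k j := fun k h => hij (hC.inj k h)
    simp only [Matrix.diagonal_apply_ne _ hij, Matrix.diagonal_apply_ne _ (h2 _)]
    exact tendsto_const_nhds

/-- the key algebraic identity -/
theorem rem_eq (h0 : 0 < ν) (D : ℕ → RData ν m) (ι : (k : ℕ) → Fin K → Fin (D k).N)
    (tt : Fin K → ℝ) (k : ℕ) (x : ℝ) (i j : Fin K) :
    fk' D ι k x i j - wf ν tt (fk D ι k x) i j =
      (ν⁻¹ : ℂ) * (dg tt i j - dg (D k).t (ι k i) (ι k j)) +
      (ν⁻¹ : ℂ) * off (ι k) ((D k).F x) i j -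
      ((1 + ν) / ν : ℂ) * (D k).dft x (ι k i) (ι k j) := by
  have hν : (ν : ℂ) ≠ 0 := by exact_mod_cast h0.ne'
  have hν1 : (1 + ν : ℂ) ≠ 0 := by
    have : (1 + ν : ℝ) ≠ 0 := by linarith
    exact_mod_cast this
  have e1 : ∑ l, fk D ι k x i l * fk D ι k x l j =
      (((D k).F x).submatrix (ι k) (ι k) * ((D k).F x).submatrix (ι k) (ι k)) i j := by
    rw [Matrix.mul_apply]; rfl
  unfold wf off RData.dft
  rw [e1]
  show (dg (D k).t - (D k).F x * (D k).F x - (D k).P x) (ι k i) (ι k j) - _ = _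
  simp only [Matrix.sub_apply, Matrix.smul_apply, Matrix.submatrix_apply, smul_eq_mul]
  push_cast
  field_simp
  ring

theorem P_eq (h0 : 0 < ν) (D : ℕ → RData ν m) (ι : (k : ℕ) → Fin K → Fin (D k).N)
    (k : ℕ) (x : ℝ) (i j : Fin K) :
    (D k).P x (ι k i) (ι k j) =
      ((1 + ν) / ν : ℂ) * ((D k).dft x (ι k i) (ι k j) + dg (D k).t (ι k i) (ι k j) -
        off (ι k) ((D k).F x) i j -
        (((D k).F x).submatrix (ι k) (ι k) * ((D k).F x).submatrix (ι k) (ι k)) i j) := by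
  have hν : (ν : ℂ) ≠ 0 := by exact_mod_cast h0.ne'
  have hν1 : (1 + ν : ℂ) ≠ 0 := by
    have : (1 + ν : ℝ) ≠ 0 := by linarith
    exact_mod_cast this
  unfold off RData.dft
  simp only [Matrix.sub_apply, Matrix.smul_apply, Matrix.submatrix_apply, smul_eq_mul]
  push_cast
  field_simp
  ring

end H5_aux

open H5_aux

theorem corner_limit_aux {ν : ℝ} (h0 : 0 < ν) (h1 : ν < 1) {m : ℕ}
    {W : ℝ → Matrix (Fin m) (Fin m) ℂ} {G : ℝ → ℝ} {Λ E₀ : ℝ} {D : ℕ → RData ν m}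
    (hG : GoodSeq ν m W G Λ E₀ D) {K : ℕ} {ι : (k : ℕ) → Fin K → Fin (D k).N} {α β : ℝ}
    {tt : Fin K → ℝ} (hC : Corner D K ι α β tt) (hCau : CauchySeq fun k => fk D ι k 0) :
    ∃ Ft : ℝ → Matrix (Fin K) (Fin K) ℂ, CornerLimit D K ι tt Ft := by
  have hB : 0 ≤ √Λ := Real.sqrt_nonneg _
  obtain ⟨C, hC1, hw⟩ := wf_lip h0 tt (B := √Λ + 1) (by positivity)
  have hsub : Metric.closedBall (0 : Fin K → Fin K → ℂ) (√Λ) ⊆ Metric.closedBall 0 (√Λ + 1) :=
    Metric.closedBall_subset_closedBall (by linarith)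
  -- membership in the interval
  have hmem : ∀ X : ℝ, ∀ᶠ k in atTop, Icc (-X) X ⊆ Icc (-(D k).L) (D k).L := by
    intro X
    filter_upwards [eventually_ge_atTop ⌈|X|⌉₊] with k hk
    have h3 : |X| ≤ (k : ℝ) := (Nat.le_ceil _).trans (by exact_mod_cast hk)
    have h4 := h3.trans (hG.L_ge k)
    have h5 := (le_abs_self X).trans h4
    exact Icc_subset_Icc (by linarith) h5
  have hmem' : ∀ x : ℝ, ∀ᶠ k in atTop, x ∈ Icc (-(D k).L) (D k).L := by
    intro x
    filter_upwards [hmem |x|] with k hk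
    exact hk (abs_le.1 le_rfl)
  set ε : ℝ → ℕ → ℝ := fun X k => ∫ x in (-X)..X, ‖fk' D ι k x - wf ν tt (fk D ι k x)‖ with hε
  have hgood : ∀ X, 0 < X → ∀ᶠ k in atTop,
      Good (-X) X (√Λ) (ε X k) (wf ν tt) (fk D ι k) (fk' D ι k) := by
    intro X hX
    filter_upwards [hmem X] with k hk
    exact ⟨fun x hx => (fk_der D ι k (hk hx)).mono hk, (fk'_cont h0 h1 D ι k).mono hk,
      fun x hx => fk_bdd hG ι k (hk hx), le_rfl⟩
  have hlim : ∀ X, 0 < X → Tendsto (ε X) atTop (𝓝 0) := by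
    intro X hX
    have key := intervalIntegral.tendsto_integral_filter_of_dominated_convergence
      (μ := volume) (a := -X) (b := X) (l := atTop)
      (F := fun k x => ‖fk' D ι k x - wf ν tt (fk D ι k x)‖) (f := fun _ => (0:ℝ))
      (fun x => (2 * |Λ| + m + |G x|) + (‖wf ν tt 0‖ + C * √Λ)) ?_ ?_ ?_ ?_
    · simpa using key
    · filter_upwards [hgood X hX] with k hk
      obtain ⟨hR, -, -⟩ := prim (by linarith : -X ≤ X) (hw.continuousOn.mono hsub) hk
        (c := 0) ⟨by linarith, hX.le⟩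
      rw [uIoc_of_le (by linarith)]
      exact ((hR.norm.mono Ioc_subset_Icc_self).aestronglyMeasurable measurableSet_Ioc)
    · filter_upwards [hgood X hX, hmem X] with k hk hI
      filter_upwards [hG.dom] with x hx hxI
      rw [uIoc_of_le (by linarith)] at hxI
      have hx' := Ioc_subset_Icc_self hxI
      rw [norm_norm]
      refine (norm_sub_le _ _).trans (add_le_add (fk'_bdd h0 h1 hG ι k (hI hx') (hx k)) ?_)
      have e1 := hw.dist_le_mul (fk D ι k x)
        (hsub (by rw [mem_closedBall_zero_iff]; exact hk.bdd x hx')) 0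
        (Metric.mem_closedBall_self (by positivity))
      rw [dist_eq_norm, dist_zero_right] at e1
      have e2 : ‖wf ν tt (fk D ι k x)‖ ≤ ‖wf ν tt 0‖ + ‖wf ν tt (fk D ι k x) - wf ν tt 0‖ := by
        have := norm_add_le (wf ν tt 0) (wf ν tt (fk D ι k x) - wf ν tt 0)
        simpa using this
      have e3 := mul_le_mul_of_nonneg_left (hk.bdd x hx') C.coe_nonneg
      linarith
    · refine IntervalIntegrable.add (IntervalIntegrable.add ?_ ?_) ?_
      · exact intervalIntegrable_const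
      · exact hG.G_int.abs.intervalIntegrable
      · exact intervalIntegrable_const
    · filter_upwards [hG.comm_ae, hG.dft_ae] with x hc hd _
      rw [← norm_zero (E := Fin K → Fin K → ℂ)]
      refine Tendsto.norm ?_
      refine tendsto_pi_nhds.2 fun i => tendsto_pi_nhds.2 fun j => ?_
      show Tendsto (fun k => fk' D ι k x i j - wf ν tt (fk D ι k x) i j) atTop (𝓝 0)
      have t1 := (dg_lim hC i j).const_sub (dg tt i j)
      rw [sub_self] at t1
      have t2 := off_entry hG hC hc i j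
      have t3 := entry_tendsto_of_hs2 hd (fun k => ι k i) (fun k => ι k j)
      have t4 := ((t1.const_mul (ν⁻¹ : ℂ)).add (t2.const_mul (ν⁻¹ : ℂ))).sub
        (t3.const_mul ((1 + ν) / ν : ℂ))
      rw [mul_zero, mul_zero, add_zero, sub_zero] at t4
      refine t4.congr fun k => ?_
      exact (rem_eq h0 D ι tt k x i j).symm
  obtain ⟨Ft, hFlim, hode'⟩ : ∃ Ft : ℝ → Matrix (Fin K) (Fin K) ℂ,
      (∀ x, Tendsto (fun k => ((D k).F x).submatrix (ι k) (ι k)) atTop (𝓝 (Ft x))) ∧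
      ∀ x i j, HasDerivAt (fun y => Ft y i j) (wf ν tt (fun i j => Ft x i j) i j) x := by
    obtain ⟨Ft, hFt, hode⟩ := limit_flow hC1 hw hgood hlim hCau
    exact ⟨Ft, hFt, fun x i j => hasDerivAt_pi.1 (hasDerivAt_pi.1 (hode x) i) j⟩
  have hwf : ∀ x, ∀ i j, wf ν tt (fun i j => Ft x i j) i j =
      (((-ν⁻¹ : ℝ) : ℂ) • (dg tt - Ft x * Ft x)) i j := by
    intro x i j
    unfold wf
    rw [Matrix.smul_apply, Matrix.sub_apply, Matrix.mul_apply, smul_eq_mul]
  have hcont : ∀ i j, Continuous fun x => Ft x i j := fun i j =>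
    continuous_iff_continuousAt.2 fun x => (hode' x i j).continuousAt
  refine ⟨Ft, hFlim, fun x i j => ?_, fun x => ?_, fun x => ?_, ?_⟩
  · rw [← hwf]; exact hode' x i j
  · -- commutator
    have hae : ∀ i j, (fun x => (tt i : ℂ) * Ft x i j - Ft x i j * (tt j : ℂ)) =ᵐ[volume]
        fun _ => 0 := by
      intro i j
      filter_upwards [hG.comm_ae] with x hx
      have t1 := entry_tendsto_of_hs2 hx (fun k => ι k i) (fun k => ι k j)
      have t2 : Tendsto (fun k => ((D k).t (ι k i) : ℂ) * (D k).F x (ι k i) (ι k j) -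
          (D k).F x (ι k i) (ι k j) * ((D k).t (ι k j) : ℂ)) atTop
          (𝓝 ((tt i : ℂ) * Ft x i j - Ft x i j * (tt j : ℂ))) := by
        have a1 := (Complex.continuous_ofReal.tendsto _).comp (hC.lim i)
        have a2 := (Complex.continuous_ofReal.tendsto _).comp (hC.lim j)
        have a3 := tendsto_entry (hFlim x) i j
        exact (a1.mul a3).sub (a3.mul a2)
      refine tendsto_nhds_unique (t2.congr fun k => ?_) t1
      exact (comm_entry (D k) x _ _).symm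
    ext i j
    have hc : Continuous (fun x => (tt i : ℂ) * Ft x i j - Ft x i j * (tt j : ℂ)) :=
      (continuous_const.mul (hcont i j)).sub ((hcont i j).mul continuous_const)
    have h2 := Measure.eq_of_ae_eq (hae i j) hc continuous_const
    have h3 := congrFun h2 x
    unfold dg
    rw [Matrix.diagonal_mul, Matrix.mul_diagonal]
    exact sub_eq_zero.1 h3
  · -- Btw
    have hb : ∀ᶠ k in atTop, Btw (fun i => √((D k).t (ι k i)))
        (((D k).F x).submatrix (ι k) (ι k)) := by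
      filter_upwards [hmem' x] with k hk
      exact btw_submatrix (hC.inj k) ((D k).F_btw x hk)
    have hd : Tendsto (fun k => dg (fun i => √((D k).t (ι k i)))) atTop
        (𝓝 (dg fun i => √(tt i))) := by
      refine tendsto_mat fun i j => ?_
      unfold dg
      by_cases hij : i = j
      · subst hij
        simp only [Matrix.diagonal_apply_eq]
        exact (Complex.continuous_ofReal.tendsto _).comp
          ((Real.continuous_sqrt.tendsto _).comp (hC.lim i))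
      · simp only [Matrix.diagonal_apply_ne _ hij]
        exact tendsto_const_nhds
    constructor
    · refine isClosed_posSemidef.mem_of_tendsto (hd.sub (hFlim x)) ?_
      filter_upwards [hb] with k hk
      exact hk.1
    · refine isClosed_posSemidef.mem_of_tendsto (hd.add (hFlim x)) ?_
      filter_upwards [hb] with k hk
      exact hk.2
  · filter_upwards [hG.comm_ae, hG.dft_ae] with x hc hd
    refine tendsto_mat fun i j => ?_
    have t1 := dg_lim hC i j
    have t2 := off_entry hG hC hc i j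
    have t3 := entry_tendsto_of_hs2 hd (fun k => ι k i) (fun k => ι k j)
    have t5 : Tendsto (fun k => (((D k).F x).submatrix (ι k) (ι k) *
        ((D k).F x).submatrix (ι k) (ι k)) i j) atTop
        (𝓝 ((Ft x * Ft x) i j)) := by
      simp only [Matrix.mul_apply]
      exact tendsto_finsetSum _ fun l _ =>
        (tendsto_entry (hFlim x) i l).mul (tendsto_entry (hFlim x) l j)
    have t6 := (((t3.add t1).sub t2).sub t5).const_mul ((1 + ν) / ν : ℂ)
    rw [zero_add, sub_zero] at t6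
    have e : ((((1 + ν) / ν : ℝ) : ℂ) • (dg tt - Ft x * Ft x)) i j =
        ((1 + ν) / ν : ℂ) * (dg tt i j - (Ft x * Ft x) i j) := by
      rw [Matrix.smul_apply, Matrix.sub_apply, smul_eq_mul]
      push_cast
      ring
    rw [e]
    refine t6.congr fun k => ?_
    rw [Matrix.submatrix_apply]
    exact (P_eq h0 D ι k x i j).symm

theorem corner_limit {ν : ℝ} (h0 : 0 < ν) (h1 : ν < 1) {m : ℕ}
    {W : ℝ → Matrix (Fin m) (Fin m) ℂ} {G : ℝ → ℝ} {Λ E₀ : ℝ} {D : ℕ → RData ν m}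
    (hG : GoodSeq ν m W G Λ E₀ D) {K : ℕ} {ι : (k : ℕ) → Fin K → Fin (D k).N} {α β : ℝ}
    {tt : Fin K → ℝ} (hC : Corner D K ι α β tt) :
    ∃ (σ : ℕ → ℕ) (Ft : ℝ → Matrix (Fin K) (Fin K) ℂ), StrictMono σ ∧
      CornerLimit (fun k => D (σ k)) K (fun k => ι (σ k)) tt Ft := by
  have hb : ∀ k, fk D ι k 0 ∈ Metric.closedBall (0 : Fin K → Fin K → ℂ) (√Λ) := by
    intro k
    rw [mem_closedBall_zero_iff]
    exact fk_bdd hG ι k ⟨by linarith [(D k).L_pos], (D k).L_pos.le⟩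
  obtain ⟨y, -, σ, hσ, hy⟩ := tendsto_subseq_of_bounded Metric.isBounded_closedBall hb
  obtain ⟨Ft, hFt⟩ := corner_limit_aux h0 h1 (hG.comp hσ) (hC.comp hσ) hy.cauchySeq
  exact ⟨σ, Ft, hσ, hFt⟩

end Crest.Agent.R332
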