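import Crest.Agent.R332.Fin515

/-!
# R332: definitions for the equality case (`⟹` of S0516)
-/

set_option autoImplicit false
open MeasureTheory Set Matrix Filter Topology
open scoped ComplexOrder
open Crest.MathPhysics.LiebThirring

namespace Crest.Agent.R332

/-- the error term of an `RData` -/
noncomputable def RData.err {ν : ℝ} {m : ℕ} (D : RData ν m) : ℝ :=
  ∑ j, ∫ s in (-√(D.t j))..(-√(D.t j) + D.η), (D.t j - s ^ 2) ^ ν

/-- the potential of an `RData` -/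
noncomputable def RData.P {ν : ℝ} {m : ℕ} (D : RData ν m) (x : ℝ) :
    Matrix (Fin D.N) (Fin D.N) ℂ := pot (lamc ν) ν⁻¹ (D.U x)

/-- `[T, F(x)]` -/
noncomputable def RData.comm {ν : ℝ} {m : ℕ} (D : RData ν m) (x : ℝ) :
    Matrix (Fin D.N) (Fin D.N) ℂ := dg D.t * D.F x - D.F x * dg D.t

/-- `(ν/(1+ν)) P(x) - (T - F(x)²)` -/
noncomputable def RData.dft {ν : ℝ} {m : ℕ} (D : RData ν m) (x : ℝ) :
    Matrix (Fin D.N) (Fin D.N) ℂ :=
  ((ν / (1 + ν) : ℝ) : ℂ) • D.P x - (dg D.t - D.F x * D.F x)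

/-- a sequence of `RData` that is asymptotically optimal for `W` -/
structure GoodSeq (ν : ℝ) (m : ℕ) (W : ℝ → Matrix (Fin m) (Fin m) ℂ) (G : ℝ → ℝ) (Λ E₀ : ℝ)
    (D : ℕ → RData ν m) : Prop where
  L_ge : ∀ k : ℕ, (k : ℝ) ≤ (D k).L
  t_le : ∀ k i, (D k).t i ≤ Λ
  sum_le : ∀ k, ∑ i, ((D k).t i) ^ (ν + 1 / 2) ≤ E₀
  err : Tendsto (fun k => (D k).err) atTop (𝓝 0)
  G_int : Integrable G
  dom : ∀ᵐ x : ℝ, ∀ k, tracePow ((D k).P x) (1 + ν) ≤ G x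
  potm_lim : ∀ᵐ x : ℝ, Tendsto (fun k => potm (lamc ν) ν⁻¹ ((D k).U x)) atTop (𝓝 (W x))
  du : Tendsto (fun k => ∫ x in (-(D k).L)..(D k).L, hs2 ((D k).DU x - (D k).F x * (D k).U x))
    atTop (𝓝 0)
  comm_int : Tendsto (fun k => ∫ x in (-(D k).L)..(D k).L, hs2 ((D k).comm x)) atTop (𝓝 0)
  comm_ae : ∀ᵐ x : ℝ, Tendsto (fun k => hs2 ((D k).comm x)) atTop (𝓝 0)
  dft_ae : ∀ᵐ x : ℝ, Tendsto (fun k => hs2 ((D k).dft x)) atTop (𝓝 0)

/-- a converging corner: `ι k` selects the eigenvalues of `T_k` that are `≥ β`, all others are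
`≤ α < β`. -/
structure Corner {ν : ℝ} {m : ℕ} (D : ℕ → RData ν m) (K : ℕ) (ι : (k : ℕ) → Fin K → Fin (D k).N)
    (α β : ℝ) (tt : Fin K → ℝ) : Prop where
  pos : 0 < β
  gap : α < β
  inj : ∀ k, Function.Injective (ι k)
  lower : ∀ k i, β ≤ (D k).t (ι k i)
  upper : ∀ k j, j ∉ Set.range (ι k) → (D k).t j ≤ α
  lim : ∀ i, Tendsto (fun k => (D k).t (ι k i)) atTop (𝓝 (tt i))

end Crest.Agent.R332
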