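import Crest.Agent.R332.M1
import Crest.Agent.R332.M2
import Crest.Agent.R332.M4
import Crest.Agent.R332.D5

/-!
# R332 piece Master: the master inequality (assembly of M1, M2, M4, D5)

`diag_family` gives `Φ, d, L₀`. Take `L = max (L₀) Lmin` (`+1`), `w(x) = lam (β hs2 Φ(x))^r`,
`β = betac ν d ε`, `ε = η²/5` (`2√ε < η`), `w₁ = ∫_{-L}^{L} w = c₀ β^r`; choose `η` by `err_small`
(with `c₀ = lam ∫_{-L}^{L} (hs2 Φ)^r`). `exists_T` (with `W T x = pot lam r (Cc T Φ(x)*)`,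
`potCc_bounds`, `potCc_continuousOn`) gives `T ∈ KK N ε ((w₁+η)²)` and `F`. `master_identity`
with `C = Cc ν d T`, and `klein_T`. Then diagonalise `T = u dg(t) u*`, `msq T = u dg(√t) u*`, and
replace `F` by `u*Fu`, `U` by `u* Cc Φ*` (`pot_conj`, `potm_conj`, `hs2` invariant).
Error term: `Btw √t (F L)` gives `-√t_i + η ≤ √t_i`, and for `s ∈ [-√t, -√t+η]`:
`0 ≤ t - s² = (√t-s)(√t+s) ≤ 2√t η`, `√t_i ≤ w₁+η`.
-/

set_option autoImplicit false
open MeasureTheory Set Matrix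
open scoped ComplexOrder ContDiff
open Crest.MathPhysics.LiebThirring

namespace Crest.Agent.R332

/-- data of a Riccati path attached to a trial family -/
structure RData (ν : ℝ) (m : ℕ) where
  N : ℕ
  t : Fin N → ℝ
  L : ℝ
  η : ℝ
  F : ℝ → Matrix (Fin N) (Fin N) ℂ
  U : ℝ → Matrix (Fin N) (Fin m) ℂ
  DU : ℝ → Matrix (Fin N) (Fin m) ℂ
  t_pos : ∀ i, 0 < t i
  L_pos : 0 < L
  η_pos : 0 < η
  U_cont : Continuous U
  DU_cont : Continuous DU
  U_deriv : ∀ x i j, HasDerivAt (fun y => U y i j) (DU x i j) x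
  U_supp : ∀ x, L ≤ |x| → U x = 0
  F_deriv : MDerivOn F (fun x => dg t - F x * F x - pot (lamc ν) ν⁻¹ (U x)) (Icc (-L) L)
  F_left : F (-L) = dg (fun i => √(t i))
  F_right : F L = dg (fun i => -√(t i) + η)
  F_btw : ∀ x ∈ Icc (-L) L, Btw (fun i => √(t i)) (F x)

namespace Master_aux

variable {N m : ℕ}

theorem hs2_conj {v : Matrix (Fin N) (Fin N) ℂ} (hv : vᴴ * v = 1)
    (A : Matrix (Fin N) (Fin m) ℂ) : hs2 (v * A) = hs2 A := by
  rw [hs2_eq_rtr, hs2_eq_rtr, Matrix.conjTranspose_mul, Matrix.mul_assoc, ← Matrix.mul_assoc vᴴ,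
    hv, Matrix.one_mul]

theorem hasDerivAt_mul_conjTranspose (A : Matrix (Fin N) (Fin N) ℂ)
    {Φ DΦ : ℝ → Matrix (Fin m) (Fin N) ℂ} {x : ℝ}
    (h : ∀ i j, HasDerivAt (fun y => Φ y i j) (DΦ x i j) x) (i : Fin N) (j : Fin m) :
    HasDerivAt (fun y => (A * (Φ y)ᴴ) i j) ((A * (DΦ x)ᴴ) i j) x := by
  simp only [Matrix.mul_apply, Matrix.conjTranspose_apply]
  exact HasDerivAt.fun_sum fun k _ => ((h j k).star).const_mul _

theorem mderivOn_conj {F F' : ℝ → Matrix (Fin N) (Fin N) ℂ} {s : Set ℝ} (h : MDerivOn F F' s)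
    (A B : Matrix (Fin N) (Fin N) ℂ) :
    MDerivOn (fun x => A * F x * B) (fun x => A * F' x * B) s := by
  intro x hx i j
  simp only [Matrix.mul_apply]
  exact HasDerivWithinAt.fun_sum fun k _ =>
    (HasDerivWithinAt.fun_sum fun l _ => ((h x hx l k)).const_mul _).mul_const _

theorem tracePow_conj {v : Matrix (Fin N) (Fin N) ℂ} (hv : vᴴ * v = 1) (hv' : v * vᴴ = 1)
    {A : Matrix (Fin N) (Fin N) ℂ} (hA : A.IsHermitian) (s : ℝ) :
    tracePow (v * A * vᴴ) s = tracePow A s := by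
  rw [tracePow_eq, tracePow_eq, mpow_conj hv hv' hA, rtr_conj hv]

theorem KI_posDef {ε : ℝ} (hε : 0 < ε) {T : Matrix (Fin N) (Fin N) ℂ} (hT : T ∈ KI N ε) :
    T.PosDef := by
  have h1 : (((ε : ℝ) : ℂ) • (1 : Matrix (Fin N) (Fin N) ℂ)).PosDef :=
    Matrix.PosDef.smul Matrix.PosDef.one (by exact_mod_cast hε)
  have h2 := Matrix.PosDef.posSemidef_add hT h1
  rwa [sub_add_cancel] at h2

theorem smul_one_eq (c : ℝ) {u : Matrix (Fin N) (Fin N) ℂ} (hu' : u * uᴴ = 1) :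
    ((c : ℝ) : ℂ) • (1 : Matrix (Fin N) (Fin N) ℂ) = u * dg (fun _ => c) * uᴴ := by
  have : dg (fun _ : Fin N => c) = (c : ℂ) • (1 : Matrix (Fin N) (Fin N) ℂ) := by
    unfold dg
    ext i j
    by_cases h : i = j <;> simp [h]
  rw [this, Matrix.mul_smul, Matrix.smul_mul, Matrix.mul_one, hu']

theorem conj_cancel {u : Matrix (Fin N) (Fin N) ℂ} (hu : uᴴ * u = 1)
    (A : Matrix (Fin N) (Fin N) ℂ) : uᴴ * (u * A * uᴴ) * u = A := by
  calc uᴴ * (u * A * uᴴ) * u = (uᴴ * u) * A * (uᴴ * u) := by simp only [Matrix.mul_assoc]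
    _ = A := by rw [hu, Matrix.one_mul, Matrix.mul_one]

theorem conj_sub_dg {u : Matrix (Fin N) (Fin N) ℂ} (a b : Fin N → ℝ) :
    u * dg a * uᴴ - u * dg b * uᴴ = u * dg (fun i => a i - b i) * uᴴ := by
  have : dg (fun i => a i - b i) = dg a - dg b := by
    unfold dg
    rw [Matrix.diagonal_sub]
    congr 1
    funext i
    push_cast
    rfl
  rw [this, Matrix.mul_sub, Matrix.sub_mul]

/-- the error term of one eigenvalue -/
theorem err_term {t η w₁ ν : ℝ} (ht : 0 < t) (hη : 0 < η) (hν : 0 < ν)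
    (h1 : -√t + η ≤ √t) (h2 : √t ≤ w₁ + η) :
    (∫ s in (-√t)..(-√t + η), (t - s ^ 2) ^ ν) ≤ η * (2 * (w₁ + η) * η) ^ ν := by
  have hst : 0 < √t := Real.sqrt_pos.2 ht
  have hb : ∀ s ∈ Set.uIoc (-√t) (-√t + η), ‖(t - s ^ 2) ^ ν‖ ≤ (2 * (w₁ + η) * η) ^ ν := by
    intro s hs
    rw [Set.uIoc_of_le (by linarith)] at hs
    have e1 : t - s ^ 2 = (√t - s) * (√t + s) := by
      nlinarith [Real.mul_self_sqrt ht.le]
    have e2 : 0 ≤ √t - s := by linarith [hs.2]
    have e3 : 0 ≤ √t + s := by linarith [hs.1]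
    have e4 : 0 ≤ t - s ^ 2 := by rw [e1]; exact mul_nonneg e2 e3
    have e5 : t - s ^ 2 ≤ 2 * (w₁ + η) * η := by
      rw [e1]
      refine mul_le_mul ?_ (by linarith [hs.2]) e3 (by linarith)
      linarith [hs.1]
    rw [Real.norm_of_nonneg (Real.rpow_nonneg e4 _)]
    exact Real.rpow_le_rpow e4 e5 hν.le
  have h3 := intervalIntegral.norm_integral_le_of_norm_le_const hb
  have h4 : |(-√t + η) - (-√t)| = η := by
    rw [show (-√t + η) - (-√t) = η by ring, abs_of_pos hη]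
  rw [h4] at h3
  calc (∫ s in (-√t)..(-√t + η), (t - s ^ 2) ^ ν)
      ≤ ‖∫ s in (-√t)..(-√t + η), (t - s ^ 2) ^ ν‖ := Real.le_norm_self _
    _ ≤ _ := h3
    _ = _ := mul_comm _ _

end Master_aux

open Master_aux

theorem master {ν : ℝ} (h0 : 0 < ν) (h1 : ν < 1) {m : ℕ}
    (W : ℝ → Matrix (Fin m) (Fin m) ℂ) (hW : ∀ i j, Measurable fun x => W x i j)
    (hWp : ∀ x, (W x).PosSemidef) (hWi : Integrable fun x => tracePow (W x) (1 + ν))
    {n : ℕ} (φ : Fin n → ℝ → Vec m) (hφ : IsTrialFamily φ) {ε' : ℝ} (hε' : 0 < ε')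
    (Lmin : ℝ) :
    ∃ D : RData ν m, Lmin ≤ D.L ∧
      (∑ j, ∫ s in (-√(D.t j))..(-√(D.t j) + D.η), (D.t j - s ^ 2) ^ ν) ≤ ε' ∧
      Integrable (fun x => breg (1 + ν) (W x) (potm (lamc ν) ν⁻¹ (D.U x))) ∧
      negMoment (energyMatrix W φ) (ν + 1 / 2) +
        (ν + 1 / 2) * (∫ x in (-D.L)..D.L, hs2 (D.DU x - D.F x * D.U x)) +
        sharpConst (ν + 1 / 2) *
          (∫ x, breg (1 + ν) (W x) (potm (lamc ν) ν⁻¹ (D.U x))) +
        (sharpConst (ν + 1 / 2) *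
          (∫ x in (-D.L)..D.L, tracePow (pot (lamc ν) ν⁻¹ (D.U x)) (1 + ν)) -
          ∑ j, (D.t j) ^ (ν + 1 / 2)) ≤
      sharpConst (ν + 1 / 2) * (∫ x, tracePow (W x) (1 + ν)) := by
  classical
  have hp1 : (1 : ℝ) ≤ 1 + ν := by linarith
  have hγ : 0 < ν + 1 / 2 := by linarith
  have hνi : 0 < ν⁻¹ := inv_pos.2 h0
  have hlam := lamc_pos h0
  obtain ⟨N, Φ, DΦ, d, L₀, hL₀, hd, hΦc, hDΦc, hΦd, hsupp₀, honb, hint, hen, hneg⟩ :=
    diag_family hγ hp1 W hW hWp hWi φ hφ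
  set L : ℝ := max L₀ Lmin with hLdef
  have hL : 0 < L := lt_max_of_lt_left hL₀
  have hsupp : ∀ x, L ≤ |x| → Φ x = 0 := fun x hx => hsupp₀ x (le_trans (le_max_left _ _) hx)
  have hLL : -L ≤ L := by linarith
  -- the constants
  set g : ℝ → ℝ := fun x => (hs2 ((Φ x)ᴴ)) ^ ν⁻¹ with hg
  have hgc : Continuous g :=
    (continuous_hs2.comp (hΦc.matrix_conjTranspose)).rpow_const (fun x => Or.inr hνi.le)
  have hg0 : ∀ x, 0 ≤ g x := fun x => Real.rpow_nonneg (hs2_nonneg _) _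
  set c₀ : ℝ := lamc ν * ∫ x in (-L)..L, g x with hc₀def
  have hc₀ : 0 ≤ c₀ := mul_nonneg hlam.le
    (intervalIntegral.integral_nonneg hLL fun x _ => hg0 x)
  obtain ⟨η, hη, hη1, herr⟩ := err_small (N := N) h0 h1 hd hc₀ hε'
  set ε : ℝ := η ^ 2 / 5 with hεdef
  have hε : 0 < ε := by positivity
  have hεη : 2 * √ε < η := by
    have h5 : √ε < η / 2 := by
      rw [Real.sqrt_lt' (by linarith), hεdef]
      nlinarith [sq_nonneg η]
    linarith
  set β : ℝ := betac ν d ε with hβdef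
  have hβ : 0 ≤ β := betac_nonneg ν hd hε
  set w₁ : ℝ := c₀ * β ^ ν⁻¹ with hw₁def
  have hw0 : 0 ≤ w₁ := mul_nonneg hc₀ (Real.rpow_nonneg hβ _)
  set w : ℝ → ℝ := fun x => lamc ν * (β * hs2 ((Φ x)ᴴ)) ^ ν⁻¹ with hwdef
  have hweq : ∀ x, w x = (lamc ν * β ^ ν⁻¹) * g x := by
    intro x
    simp only [hwdef, hg]
    rw [Real.mul_rpow hβ (hs2_nonneg _)]
    ring
  have hwc : Continuous w := by
    rw [show w = fun x => (lamc ν * β ^ ν⁻¹) * g x from funext hweq]
    exact continuous_const.mul hgc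
  have hwint : ∫ x in (-L)..L, w x ≤ w₁ := by
    rw [show w = fun x => (lamc ν * β ^ ν⁻¹) * g x from funext hweq,
      intervalIntegral.integral_const_mul, hw₁def, hc₀def]
    apply le_of_eq
    ring
  obtain ⟨T, F, hTK, hFa, hFb, hFd, hFbtw⟩ := exists_T (n := N) hLL hε hη hεη w
    hwc.continuousOn hwint hw0
    (fun T x => pot (lamc ν) ν⁻¹ (Cc ν d T * (Φ x)ᴴ))
    (potCc_continuousOn h0 h1 hd hlam hε (fun x => (Φ x)ᴴ) hΦc.matrix_conjTranspose (Icc (-L) L))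
    (fun T hT x _ => potCc_bounds h0 h1 hd hlam hε hT ((Φ x)ᴴ))
  have hTI : T ∈ KI N ε := hTK.1
  have hTpd : T.PosDef := KI_posDef hε hTI
  set C := Cc ν d T with hCdef
  have hCh : C.IsHermitian := Cc_isHermitian ν d hTpd
  have hmsqH : (msq T).IsHermitian := (mpow_posDef hTpd _).isHermitian
  have hFh : ∀ x ∈ Icc (-L) L, (F x).IsHermitian := by
    intro x hx
    have h2 : F x = msq T - (msq T - F x) := by rw [sub_sub_cancel]
    rw [h2]
    exact hmsqH.sub (hFbtw x hx).1.isHermitian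
  obtain ⟨hbi, hmi⟩ := master_identity h0 h1 W hW hWp hWi Φ DΦ d hL hΦc hDΦc hΦd hsupp honb hint
    hen C T hCh hTpd.isHermitian F hFh hFd
  have hkl := klein_T h0 h1 hd hTpd
  rw [← hCdef] at hkl
  -- diagonalise `T`
  obtain ⟨u, t, hu, hu', hTu⟩ := exists_diag hTpd.isHermitian
  have ht : ∀ i, 0 < t i := diag_pos hu hTu hTpd
  have hmsq : msq T = u * dg (fun i => √(t i)) * uᴴ := by
    unfold msq
    rw [hTu, mpow_diag hu hu']
    congr 3
    funext i
    rw [Real.sqrt_eq_rpow]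
  have hv : (uᴴ)ᴴ * uᴴ = 1 := by rw [Matrix.conjTranspose_conjTranspose]; exact hu'
  have hv' : uᴴ * (uᴴ)ᴴ = 1 := by rw [Matrix.conjTranspose_conjTranspose]; exact hu
  have hpotu : ∀ X : Matrix (Fin N) (Fin m) ℂ,
      pot (lamc ν) ν⁻¹ (uᴴ * X) = uᴴ * pot (lamc ν) ν⁻¹ X * u := by
    intro X
    rw [pot_conj hv, Matrix.conjTranspose_conjTranspose]
  have hFright : uᴴ * F L * u = dg (fun i => -√(t i) + η) := by
    rw [hFb, hmsq, smul_one_eq η hu', conj_sub_dg, conj_cancel hu]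
    congr 1
    funext i
    ring
  have hbtw : ∀ x ∈ Icc (-L) L, Btw (fun i => √(t i)) (uᴴ * F x * u) := by
    intro x hx
    obtain ⟨q1, q2⟩ := hFbtw x hx
    have e : dg (fun i => √(t i)) = uᴴ * msq T * u := by
      rw [hmsq, conj_cancel hu]
    constructor
    · rw [e, ← Matrix.sub_mul, ← Matrix.mul_sub]
      exact q1.conjTranspose_mul_mul_same u
    · rw [e, ← Matrix.add_mul, ← Matrix.mul_add]
      exact q2.conjTranspose_mul_mul_same u
  let D : RData ν m :=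
    { N := N
      t := t
      L := L
      η := η
      F := fun x => uᴴ * F x * u
      U := fun x => uᴴ * (C * (Φ x)ᴴ)
      DU := fun x => uᴴ * (C * (DΦ x)ᴴ)
      t_pos := ht
      L_pos := hL
      η_pos := hη
      U_cont := continuous_const.matrix_mul
        (continuous_const.matrix_mul hΦc.matrix_conjTranspose)
      DU_cont := continuous_const.matrix_mul
        (continuous_const.matrix_mul hDΦc.matrix_conjTranspose)
      U_deriv := by
        intro x i j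
        simp only [← Matrix.mul_assoc]
        exact hasDerivAt_mul_conjTranspose (uᴴ * C) (hΦd x) i j
      U_supp := by
        intro x hx
        rw [hsupp x hx]
        simp
      F_deriv := by
        have h3 := mderivOn_conj hFd uᴴ u
        intro x hx i j
        have h4 := h3 x hx i j
        have h5 : dg t - uᴴ * F x * u * (uᴴ * F x * u) -
            pot (lamc ν) ν⁻¹ (uᴴ * (C * (Φ x)ᴴ)) =
            uᴴ * (T - F x * F x - pot (lamc ν) ν⁻¹ (C * (Φ x)ᴴ)) * u := by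
          have e1 : dg t = uᴴ * T * u := by
            conv_rhs => rw [hTu]
            rw [conj_cancel hu]
          have e2 : uᴴ * F x * u * (uᴴ * F x * u) = uᴴ * (F x * F x) * u := by
            calc uᴴ * F x * u * (uᴴ * F x * u) = uᴴ * F x * (u * uᴴ) * F x * u := by
                  simp only [Matrix.mul_assoc]
              _ = _ := by rw [hu', Matrix.mul_one]; simp only [Matrix.mul_assoc]
          rw [hpotu, e1, e2, Matrix.mul_sub, Matrix.mul_sub, Matrix.sub_mul, Matrix.sub_mul]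
        show HasDerivWithinAt (fun y => (uᴴ * F y * u) i j)
          ((dg t - uᴴ * F x * u * (uᴴ * F x * u) -
            pot (lamc ν) ν⁻¹ (uᴴ * (C * (Φ x)ᴴ))) i j) (Icc (-L) L) x
        rw [h5]
        exact h4
      F_left := by
        show uᴴ * F (-L) * u = _
        rw [hFa, hmsq, conj_cancel hu]
      F_right := hFright
      F_btw := hbtw }
  refine ⟨D, le_max_right _ _, ?_, ?_, ?_⟩
  · -- error term
    have hb : ∀ j, (∫ s in (-√(t j))..(-√(t j) + η), (t j - s ^ 2) ^ ν) ≤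
        η * (2 * (w₁ + η) * η) ^ ν := by
      intro j
      refine err_term (ht j) hη h0 ?_ ?_
      · have h3 := (hbtw L ⟨hLL, le_rfl⟩).1
        rw [hFright] at h3
        have h4 : (dg (fun i => √(t i)) - dg (fun i => -√(t i) + η)) =
            dg (fun i => √(t i) - (-√(t i) + η)) := by
          have := conj_sub_dg (u := (1 : Matrix (Fin N) (Fin N) ℂ)) (fun i => √(t i))
            (fun i => -√(t i) + η)
          simpa using this
        rw [h4] at h3
        have h5 := (Matrix.posSemidef_diagonal_iff.1 h3) j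
        have h6 : (0 : ℝ) ≤ √(t j) - (-√(t j) + η) := by exact_mod_cast h5
        linarith
      · have h3 := hTK.2
        rw [smul_one_eq ((w₁ + η) ^ 2) hu', hTu, conj_sub_dg] at h3
        have h4 := diag_nonneg hu rfl h3 j
        rw [Real.sqrt_le_left (by linarith)]
        linarith
    calc (∑ j, ∫ s in (-√(t j))..(-√(t j) + η), (t j - s ^ 2) ^ ν)
        ≤ ∑ _j : Fin N, η * (2 * (w₁ + η) * η) ^ ν := Finset.sum_le_sum fun j _ => hb j
      _ = N * (η * (2 * (w₁ + η) * η) ^ ν) := by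
          rw [Finset.sum_const, Finset.card_univ, Fintype.card_fin, nsmul_eq_mul]
      _ ≤ ε' := herr
  · show Integrable (fun x => breg (1 + ν) (W x) (potm (lamc ν) ν⁻¹ (uᴴ * (C * (Φ x)ᴴ))))
    simp only [potm_conj hv]
    exact hbi
  · show negMoment (energyMatrix W φ) (ν + 1 / 2) +
        (ν + 1 / 2) * (∫ x in (-L)..L, hs2 (uᴴ * (C * (DΦ x)ᴴ) -
          uᴴ * F x * u * (uᴴ * (C * (Φ x)ᴴ)))) +
        sharpConst (ν + 1 / 2) *
          (∫ x, breg (1 + ν) (W x) (potm (lamc ν) ν⁻¹ (uᴴ * (C * (Φ x)ᴴ)))) +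
        (sharpConst (ν + 1 / 2) *
          (∫ x in (-L)..L, tracePow (pot (lamc ν) ν⁻¹ (uᴴ * (C * (Φ x)ᴴ))) (1 + ν)) -
          ∑ j, (t j) ^ (ν + 1 / 2)) ≤
      sharpConst (ν + 1 / 2) * (∫ x, tracePow (W x) (1 + ν))
    have e1 : ∀ x, hs2 (uᴴ * (C * (DΦ x)ᴴ) - uᴴ * F x * u * (uᴴ * (C * (Φ x)ᴴ))) =
        hs2 (C * (DΦ x)ᴴ - F x * (C * (Φ x)ᴴ)) := by
      intro x
      rw [← hs2_conj hv (C * (DΦ x)ᴴ - F x * (C * (Φ x)ᴴ))]
      congr 1
      rw [Matrix.mul_sub]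
      congr 1
      calc uᴴ * F x * u * (uᴴ * (C * (Φ x)ᴴ)) = uᴴ * F x * (u * uᴴ) * (C * (Φ x)ᴴ) := by
            simp only [Matrix.mul_assoc]
        _ = _ := by rw [hu', Matrix.mul_one, Matrix.mul_assoc]
    have e2 : ∀ x, tracePow (pot (lamc ν) ν⁻¹ (uᴴ * (C * (Φ x)ᴴ))) (1 + ν) =
        tracePow (pot (lamc ν) ν⁻¹ (C * (Φ x)ᴴ)) (1 + ν) := by
      intro x
      rw [pot_conj hv, tracePow_conj hv hv' (pot_posSemidef hlam.le _).isHermitian]
    have e3 : ∑ j, (t j) ^ (ν + 1 / 2) = tracePow T (ν + 1 / 2) := by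
      rw [hTu, tracePow_diag hu hu']
    simp only [e1, e2, potm_conj hv]
    rw [e3, hneg, hmi]
    linarith

end Crest.Agent.R332
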